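import Vale.Agent.P287Q.G.Bas.Ev
import Vale.Agent.P287Q.G.Bas.DgE
import Vale.Agent.P287Q.G.Glu.DiagC

set_option linter.unusedSectionVars false
set_option linter.style.haveILetI false

/-!
# The diagonal cocycle
-/

namespace Vale.Agent.P269

open P291Z Set Function Topology Filter Orb

variable {S Λ R J K : Type} [Fintype S] [Fintype Λ] [Fintype R] [Fintype J] [Fintype K]

namespace Fam

variable {F : Fam S Λ R J K} {K₀ : RD R} {t t' : Coch F.X2} [DecidableEq R]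

theorem IsDiag.cohom (h : F.Good) (hR : F.Reg K₀) (ht : F.IsDiag t) (ht' : F.IsDiag t') :
    Cohom F.Δ2 t t' := IsDiag.cohom' h hR ht ht'

/-- **the diagonal cocycle is the Euler cocycle** -/
theorem IsDiag.lcoh (h : F.Good) (hR : F.Reg K₀) (ht : F.IsDiag t)
    {k : Ch.KP (h.gd_dg hR).dom.sp} {i} (hk : (h.gd_dg hR).dom.IsKP k i) :
    LCoh F.Δ2 (k.eul : Coch F.X2) t :=
  haveI := h.nice2
  have hZ : F.Δ2 = k.Z := (h.range_dg0 _).symm.trans ((h.gd_dg hR).dom.range_incl hk)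
  (LCoh.of_van (LCo.isCo h.toInv.isClosed_Δ2 (hZ ▸ k.lco :) k.eul_deg).2).trans
    (LCoh.of_cohom (Isol.refl _) (IsDiag.cohom h hR (h.isDiag_loc hR hk) ht))

theorem IsDiag.vr_eq (h : F.Good) (hR : F.Reg K₀) (ht : F.IsDiag t) : haveI := h.nice2
    F.dgD.vr F.act2 F.dg0 F.cone2 = gys (Quo.incl F.act2 (h.gd_dg hR).dom.sub) t := by
  haveI := h.nice2
  obtain ⟨k, i, hk, -, -, e⟩ := (h.gd_dg hR).exists_isKP
  have hZ : F.Δ2 = k.Z := (h.range_dg0 _).symm.trans ((h.gd_dg hR).dom.range_incl hk)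
  have h1 := (h.gd_dg hR).dom.isZ hk
  exact e.trans ((h1.vir_eq (hZ ▸ ht.lcoh h hR hk :)).trans
    (lgys_eq_gys h1.emb ht.1 (ht.2.1.trans (h.range_dg0 _).ge)))

end Fam

theorem St.dg : St.Dg := fun _ _ h hR =>
  ⟨h.isDiag hR, (h.isDiag hR).deg h.toInv hR, fun _ _ => Fam.IsDiag.cohom h hR⟩

end Vale.Agent.P269
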