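import Vale.Agent.P287Q.G.Bas.Ev
import Vale.Agent.P269.Bas.NF0

/-!
# The normal form of the integrals
-/

set_option linter.unusedSectionVars false

namespace Vale.Agent.P269

open P291Z Set Function Topology Filter

variable {S Λ R J K ι ν κ : Type} [Fintype S] [Fintype Λ] [Fintype R] [Fintype J] [Fintype K]
  [Fintype ι] [DecidableEq ι] [Fintype ν] [Fintype κ]

theorem cocycle_ind' {Y : Type} [TopologicalSpace Y] {B : Set Y} (hB : IsClopen B) :
    supp (δ (ind B)) = ∅ := by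
  have e : ind B = fn (B.indicator 1) := by
    refine Subtype.ext (funext fun l => ?_)
    rcases l with _ | ⟨y, _ | ⟨z, l⟩⟩
    · simp [ind, fn]
    · by_cases h : y ∈ B <;> simp [ind, fn, h]
    · simp [ind, fn]
  rw [e]
  exact Orb.cocycle_fn.2 (LocallyConstant.indicator (.const Y (1 : ℂ)) hB).2

theorem pull_ind {X Y : Type} (f : X → Y) (B : Set Y) : pull f (ind B) = ind (f ⁻¹' B) := by
  refine Subtype.ext (funext fun l => ?_)
  rw [pull_val]
  rcases l with _ | ⟨y, _ | ⟨z, l⟩⟩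
  · simp [ind]
  · by_cases h : f y ∈ B <;> simp [ind, h]
  · simp [ind]

/-- The set that contains the support of a factor. -/
def Fac.spt {F : Wt S Λ R J} {ch : Ch ι J} (Z : Set (ch.WF ν κ Λ)) :
    Fac F ν κ → Set (Quo (Ch.actF F) Z)
  | .dg q => Ch.diq F Z q
  | _ => univ

theorem Fac.dq_eq_some {F : Wt S Λ R J} {f : Fac F ν κ} {q : κ} : f.dq = some q ↔ f = .dg q := by
  cases f <;> simp [Fac.dq]

theorem Fac.spt_of_dq {F : Wt S Λ R J} {ch : Ch ι J} (Z : Set (ch.WF ν κ Λ)) {f : Fac F ν κ}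
    (h : f.dq = none) : f.spt Z = univ := by
  cases f
  exacts [rfl, rfl, rfl, (nomatch h), rfl]

namespace Fam

variable {F : Fam S Λ R J K} {ch : Ch ι J} {Z : Set (ch.WF ν κ Λ)} {fs : List (Fac F.toWt ν κ)}

theorem cn_eq (f : Fac F.toWt ν κ) : F.cn Z f = f.dq.elim (F.cl Z f) fun _ => 1 := by
  cases f <;> rfl

theorem itg_apply (v : BM (Quo (Ch.actF F.toWt) Z)) (c : H (Quo (Ch.actF F.toWt) Z)) :
    F.itg v c = v (Hc.act c (P291Z.cls (F.dgT Z))) := rfl

variable (F Z) in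
/-- The cochain `b` represents the factor `f`. -/
def Rp (f : Fac F.toWt ν κ) (b : Coch (Quo (Ch.actF F.toWt) Z)) : Prop :=
  Cohom (f.spt Z) (F.coch Z f) b

theorem Rp.refl (f : Fac F.toWt ν κ) : F.Rp Z f (F.coch Z f) := Cohom.refl _ _

theorem forall₂_refl (fs : List (Fac F.toWt ν κ)) :
    List.Forall₂ (F.Rp Z) fs (fs.map (F.coch Z)) :=
  List.forall₂_map_right_iff.2 (List.forall₂_same.2 fun f _ => Rp.refl f)

open Classical in
/-- the normal form if each diagonal occurs once -/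
theorem clL_eq (h : (fs.filterMap Fac.dq).Nodup) :
    F.clL Z fs = (fs.map (F.cn Z)).prod := by
  have e : (fs.filterMap Fac.dq).diff Finset.univ.toList = [] :=
    List.eq_nil_iff_forall_not_mem.2 fun q hq =>
      (h.mem_sdiff_iff.1 hq).2 (Finset.mem_toList.2 (Finset.mem_univ q))
  rw [clL, e, List.map_nil, List.prod_nil, one_mul]

theorem clL_congr {fs' : List (Fac F.toWt ν κ)} (h : fs.filterMap Fac.dq = fs'.filterMap Fac.dq)
    (e : (fs.map (F.cn Z)).prod = (fs'.map (F.cn Z)).prod) : F.clL Z fs = F.clL Z fs' := by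
  rw [clL, clL, h, e]

end Fam

namespace Ch.GZ

variable {ch : Ch ι J} {F : Fam S Λ R J K} {ℓ : R → ι → ℤ} {Z : Set (ch.WF ν κ Λ)}
  {fs : List (Fac F.toWt ν κ)} {a a' : Coch (Quo (actF F.toWt) Z)} (h : GZ F ℓ Z)
  (hd : F.IsDiag F.diag)
include h hd

theorem supp_coch (f : Fac F.toWt ν κ) : supp (F.coch Z f) ⊆ f.spt Z := by
  cases f
  exacts [subset_univ _, subset_univ _, subset_univ _, h.supp_dg hd _, subset_univ _]

theorem rp_of_cl {f : Fac F.toWt ν κ} (hA : f.At Z) (hf : f.dq = none) {b : Coch _}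
    (hb : supp (δ b) = ∅) (e : F.cl Z f = hcls b) : F.Rp Z f b :=
  (NF.cohom_of_hcls (h.cocycle hd hA) hb e).mono (Fac.spt_of_dq Z hf).ge

section At

variable (hA : ∀ f ∈ fs, f.At Z)
include hA

theorem cocycle_prod : supp (δ (fs.map (F.coch Z)).prod) = ∅ :=
  NF.cocycle_prod (List.forall_mem_map.2 fun f hf => h.cocycle hd (hA f hf))

/-- **the factors can be replaced by cohomologous cocycles** -/
theorem cls_congr {M : List (Coch _)} (hM : List.Forall₂ (F.Rp Z) fs M) (hq : ∀ q, .dg q ∈ fs)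
    {B : Set _} (ha : supp (δ a) = ∅) (hB : supp a ⊆ B) (e : Cohom B a a')
    (hc : IsCompact (dia F.toWt Z ∩ B)) :
    a * (fs.map (F.coch Z)).prod ∈ Zc _ ∧ a' * M.prod ∈ Zc _ ∧
      P291Z.cls (a * (fs.map (F.coch Z)).prod) = P291Z.cls (a' * M.prod) :=
  NF.cls_congr (fun f hf => ⟨h.cocycle hd (hA f hf), h.supp_coch hd f⟩) hM ha hB e hc fun _ hx k =>
    ⟨dia_eq.ge (mem_iInter.2 fun q => k _ (hq q)), hx⟩

theorem ev_congr {M : List (Coch _)} (hM : List.Forall₂ (F.Rp Z) fs M) (hq : ∀ q, .dg q ∈ fs)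
    (ha : supp (δ a) = ∅) (ha' : supp (δ a') = ∅) (e : hcls a = hcls a')
    (hc : IsCompact (dia F.toWt Z)) (v : BM _) :
    ev v (a * (fs.map (F.coch Z)).prod) = ev v (a' * M.prod) := by
  rw [ev_eq, ev_eq, (h.cls_congr hd hA hM hq ha (subset_univ _) (NF.cohom_of_hcls ha ha' e)
    (by rwa [inter_univ])).2.2]

/-- comparison with the pull-back of an integrand -/
theorem ev_pull {α Y : Type} {Φ : Quo (actF F.toWt) Z → Y} {c : α → Coch Y} {L : List α}
    (hM : List.Forall₂ (fun f x => F.Rp Z f (pull Φ (c x))) fs L) (hq : ∀ q, .dg q ∈ fs)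
    (ha : supp (δ a) = ∅) (ha' : supp (δ a') = ∅) (e : hcls a = hcls a')
    (hc : IsCompact (dia F.toWt Z)) (v : BM _) :
    ev v (a * (fs.map (F.coch Z)).prod) = ev v (a' * pull Φ (L.map c).prod) := by
  rw [map_list_prod, List.map_map]
  exact h.ev_congr hd hA (List.forall₂_map_right_iff.2 hM) hq ha ha' e hc v

theorem mem_Zc (hq : ∀ q, .dg q ∈ fs) (ha : supp (δ a) = ∅) (hc : IsCompact (dia F.toWt Z)) :
    a * (fs.map (F.coch Z)).prod ∈ Zc _ :=
  (h.cls_congr hd hA (Fam.forall₂_refl fs) hq ha (subset_univ _) (Cohom.refl _ _)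
    (by rwa [inter_univ])).1

end At

variable {r : ℤ} (hr : IsDeg (2 * r) F.diag) (hc : IsCompact (dia F.toWt Z))
include hr hc

theorem cls_eq (hA : ∀ f ∈ fs, f.At Z) (hq : ∀ q, .dg q ∈ fs) (ha : supp (δ a) = ∅) :
    F.dgT Z ∈ Zc _ ∧ P291Z.cls (a * (fs.map (F.coch Z)).prod) =
      Hc.act (hcls a * F.clL Z fs) (P291Z.cls (F.dgT Z)) := by
  have k := NF.cls_nf (dq := Fac.dq) (t := fun q => F.coch Z (.dg q)) (d := r)
    (fun f hf => h.cocycle hd (hA f hf)) (fun f _ q e => ⟨congrArg _ (Fac.dq_eq_some.1 e), h.dg_deg hr q⟩)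
    (fun q => ⟨_, hq q, rfl⟩) ha hc fun _ k => dia_eq.ge (mem_iInter.2 fun q => h.supp_dg hd q (k q))
  refine ⟨k.1, k.2.trans ?_⟩
  rw [Fam.clL, List.map_congr_left fun f _ => Fam.cn_eq (Z := Z) f]
  rfl

/-- **normal form** -/
theorem ev_nf (hA : ∀ f ∈ fs, f.At Z) (hq : ∀ q, .dg q ∈ fs) (ha : supp (δ a) = ∅) (v : BM _) :
    ev v (a * (fs.map (F.coch Z)).prod) = F.itg v (hcls a * F.clL Z fs) := by
  rw [ev_eq, (h.cls_eq hd hr hc hA hq ha).2, Fam.itg_apply]

theorem dgT_mem : F.dgT Z ∈ Zc _ :=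
  (h.cls_eq hd hr hc (fs := Finset.univ.toList.map .dg) (List.forall_mem_map.2 fun _ _ => trivial)
    (fun q => List.mem_map_of_mem (Finset.mem_toList.2 (Finset.mem_univ q))) cocycle_one).1

theorem itg_hcls (ha : supp (δ a) = ∅) (v : BM _) : F.itg v (hcls a) = ev v (F.dgT Z * a) := by
  rw [Fam.itg_apply, Hc.act_cls ha (h.dgT_mem hd hr hc), ev_eq]

omit hd hc in
theorem dgT_deg : IsDeg (2 * r * Fintype.card κ) (F.dgT Z) :=
  (IsDeg.prod (List.forall_mem_map.2 fun q _ => h.dg_deg hr q)).cast (by simp [mul_comm])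

/-- only classes of the right degree have nonzero integrals -/
theorem itg_eq_zero {v : BM (Quo (actF F.toWt) Z)} {m m' : ℤ} (hv : BM.IsDeg m v) {c : H _} (hm : H.IsDeg m' c)
    (e : 2 * r * Fintype.card κ + m' ≠ m) : F.itg v c = 0 := by
  obtain ⟨b, hb, hb', rfl⟩ := H.isDeg_iff.1 hm
  rw [h.itg_hcls hd hr hc hb]
  exact hv _ _ e ((h.dgT_deg hr).mul hb')

end Ch.GZ

end Vale.Agent.P269
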