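import Vale.Agent.P287Q.G.Bas.NumB
import Vale.Agent.P287Q.G.Bas.Dg

/-!
# The formal properties of the correlators
-/

set_option linter.unusedSectionVars false

namespace Vale.Agent.P269

open P291Z Set Function Topology Filter LG

variable {S Λ R J K ι ν κ ν₁ ν₃ : Type} [Fintype S] [Fintype Λ] [Fintype R] [Fintype J]
  [Fintype K] [Fintype ι] [DecidableEq ι] [Fintype ν] [Fintype κ] [Fintype ν₁] [Fintype ν₃]

namespace Num

theorem isDeg_ind {Y : Type} (B : Set Y) : IsDeg 0 (ind B) := fun l hl => if_neg (by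
  rintro ⟨y, -, rfl⟩
  exact hl rfl)

theorem ind_split {Y : Type} (B C : Set Y) : ind B = ind (B ∩ C) + ind (B ∩ Cᶜ) := by
  refine Subtype.ext (funext fun l => ?_)
  change _ = (ind (B ∩ C)).1 l + (ind (B ∩ Cᶜ)).1 l
  rcases l with _ | ⟨y, _ | ⟨z, l⟩⟩
  · simp [ind]
  · by_cases h : y ∈ B <;> by_cases h' : y ∈ C <;> simp [ind, h, h']
  · simp [ind]

theorem mem_std {α : Type} {l : List α} {x : Fin l.length × α} (h : x ∈ std l) : l.get x.1 = x.2 :=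
  let ⟨_, e⟩ := (List.mem_ofFn' _ _).1 h; e ▸ rfl

theorem std_cons {α : Type} (x : α) (l : List α) :
    std (x :: l) = (⟨0, Nat.succ_pos _⟩, x) :: .ofFn fun i => (i.succ, l.get i) := List.ofFn_succ

section lvl

variable {F : Fam S Λ R J K} {ch : Ch ι J} {Z : Set (ch.WF (ν₁ ⊕ ν₃) κ Λ)} {ℓ : R → ι → ℤ}
  {A A' : Set ((Λ → ℂ) × (J → ℂ))} (h : Ch.GZ F ℓ Z) (I : H (Quo (Ch.actF F.toWt) Z) →ₗ[ℂ] ℂ)
  (a : H (Quo (Ch.actF F.toWt) Z)) (e : F.Ex) {M₂ : List (κ × ℕ × ℕ)} (hn : (M₂.map Prod.fst).Nodup)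
include h hn

theorem sw_one (hA : ∀ n, ∀ x ∈ Z, Ch.vl x (.inl (.inl n)) ∈ A) (M₃ : List (ν₃ × ℕ × H (F.X A'))) :
    SW (parH _) fun M : List ((ν₁ × ℕ) × H (F.X A)) =>
      I (a * F.clL Z (F.fsW e A A' (M.map fun x => (x.1.1, x.1.2, x.2)) M₂ M₃)) := by
  refine (congrArg _ (funext fun M => ?_)).mp (sw_of_isEv (fun x : ν₁ × ℕ => insL h _ (hA x.1) x.2)
    (fun x => isEv_insL h _ _ _) (I ∘ₗ LinearMap.mulRight ℂ ((M₂.map (nod F Z)).prod *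
      (M₃.map fun x => F.cl Z (.ev (.inl (.inr x.1)) A' x.2.2)).prod))
    (a * (F.cl Z (.tw e.Θ) * F.cl Z (.par e.B e.c))))
  simp only [clL_fsW Z e _ hn, List.map_map, comp_def, ins_eq h _ (hA _), LinearMap.comp_apply,
    LinearMap.mulRight_apply, mul_assoc]

theorem sw_three (hA : ∀ n, ∀ x ∈ Z, Ch.vl x (.inl (.inr n)) ∈ A')
    (M₁ : List (ν₁ × ℕ × H (F.X A))) : SW (parH _) fun M : List ((ν₃ × ℕ) × H (F.X A')) =>
      I (a * F.clL Z (F.fsW e A A' M₁ M₂ (M.map fun x => (x.1.1, x.1.2, x.2)))) := by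
  refine (congrArg _ (funext fun M => ?_)).mp (sw_of_isEv (fun x : ν₃ × ℕ => insL h _ (hA x.1) 0)
    (fun x => isEv_insL h _ _ _) I (a * (F.cl Z (.tw e.Θ) * F.cl Z (.par e.B e.c) *
      (M₁.map fun x => ins F Z (.inl (.inl x.1)) A x.2).prod * (M₂.map (nod F Z)).prod)))
  simp only [clL_fsW Z e _ hn, List.map_map, comp_def, ev_eq_insL h _ (hA _), mul_assoc]

end lvl

end Num

open P269.Num

namespace Fam

variable [DecidableEq R] {F : Fam S Λ R J K} {k D : ℕ} {e e' : F.Ex} {δ : J → ℕ}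
  {A A' B B' : Set ((Λ → ℂ) × (J → ℂ))} (d : R → ℤ) (g : ℤ) (t : ν₃ → ℕ)

theorem Nice.vir_even (h : F.Nice δ) (hk : F.Big k) (hD : F.BigD k D) (u : ν → ℕ) :
    ∃ m : ℤ, BM.IsDeg (2 * m) (F.vir κ k D g d fun n => u n • δ) :=
  let ⟨_, a⟩ := h.reg
  let ⟨_, b⟩ := h.sm
  let ⟨_, _, _, _, c⟩ := h.sh
  ⟨_, h.toGood.vir_deg' κ a b h.pol c hk hD g d u⟩

theorem Nice.vl_dvs (h : F.Nice δ) (hk : F.Big k) (hD : F.BigD k D) (s : ν₃) :
    ∀ x ∈ F.Zs κ k D g d fun n : ν₁ ⊕ ν₃ => (Sum.elim 0 (fun s => t s + 1) n : ℕ) • δ,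
      Ch.vl x (.inl (.inr s)) ∈ F.dvs δ :=
  h.at_of_ok hk hD (ok_rel Subset.rfl s 0)

/-- comparison of two correlators on the same moduli spaces -/
theorem CorOk.corL_congr (h : F.CorOk k e δ A A') (h' : F.CorOk k e' δ B B') (hP : e.P = e'.P)
    {M₁ : List (ν₁ × ℕ × H (F.X A))} {M₂ M₂' : List (κ × ℕ × ℕ)} {M₃ M₁' M₃'} (h₂ : Enum M₂)
    (h₂' : Enum M₂') (E : ∀ (ch : Ch (Option R) J) (Z : Set (ch.WF (ν₁ ⊕ ν₃) κ Λ)), Ch.GZ F ℓs Z →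
      (∀ s, ∀ x ∈ Z, Ch.vl x (.inl (.inr s)) ∈ F.dvs δ) →
      F.clL Z (F.fsW e A A' M₁ M₂ M₃) = F.clL Z (F.fsW e' B B' M₁' M₂' M₃') ∨
      F.clL Z (F.fsW e A A' M₁ M₂ M₃) = (parH _).σ (F.clL Z (F.fsW e' B B' M₁' M₂' M₃'))) :
    F.corL k e δ A A' d g t M₁ M₂ M₃ = F.corL k e' δ B B' d g t M₁' M₂' M₃' := by
  refine inv_eq_inv ?_
  filter_upwards [(h.iv d g t M₁ h₂ M₃).intg_eq St.dg, (h'.iv d g t M₁' h₂' M₃').intg_eq St.dg,
    (h.iv d g t M₁ h₂ M₃).lvl] with D a b c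
  rw [a, b, hP]
  rcases E _ _ c.gz (h.nice.vl_dvs d g t h.big c.big) with f | f
  · rw [f]
  obtain ⟨i, ⟨r, j⟩, -⟩ := h.nice.dg St.dg
  obtain ⟨m, v⟩ := h.nice.vir_even (κ := κ) d g h.big c.big (Sum.elim (0 : ν₁ → ℕ) fun s => t s + 1)
  rw [f, ← Tq.parH_Hev (Ch.mem_Hev (k := 0) (hcls_isDeg (isDeg_ind _))), ← Tq.parH_mul,
    apply_parH fun n x hn hx => c.gz.itg_eq_zero i j c.cpt v hx ?_,
    Tq.parH_Hev (Ch.mem_Hev (k := 0) (hcls_isDeg (isDeg_ind _)))]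
  obtain ⟨n, rfl⟩ := hn
  rw [mul_assoc]
  omega

theorem CorOk.sw_one (h : F.CorOk k e δ A A') (hW : St.Well) {M₂ : List (κ × ℕ × ℕ)} (h₂ : Enum M₂)
    (M₃ : List (ν₃ × ℕ × H (F.X A'))) : SW (parH _) fun M : List ((ν₁ × ℕ) × H (F.X A)) =>
      F.corL k e δ A A' d g t (M.map fun x => (x.1.1, x.1.2, x.2)) M₂ M₃ :=
  sw_of_eventually ((F.eventually_bigD k).mono fun _ a => Num.sw_one (h.nice.gz κ h.big a g d _) _ _
    e h₂.1 (fun _ _ b => h.hA (Ch.vl_mem b.1 _)) M₃) fun _ => (h.iv d g t _ h₂ M₃).nf hW St.dg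

theorem CorOk.sw_three (h : F.CorOk k e δ A A') (hW : St.Well) {M₂ : List (κ × ℕ × ℕ)}
    (h₂ : Enum M₂) (M₁ : List (ν₁ × ℕ × H (F.X A))) :
    SW (parH _) fun M : List ((ν₃ × ℕ) × H (F.X A')) =>
      F.corL k e δ A A' d g t M₁ M₂ (M.map fun x => (x.1.1, x.1.2, x.2)) :=
  sw_of_eventually ((F.eventually_bigD k).mono fun _ a => Num.sw_three (h.nice.gz κ h.big a g d _)
    _ _ e h₂.1 (fun s x b => h.hA' (h.nice.vl_dvs d g t h.big a s x b)) M₁)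
    fun _ => (h.iv d g t M₁ h₂ _).nf hW St.dg

end Fam

theorem St.cor (hW : St.Well) (hR : St.Rel) : St.Cor := by
  intro S Λ R J K _ _ _ _ _ _ F δ k e A A' h1 h2 h3 h4 h5 h6 d j
  have h : F.CorOk k e δ A A' := ⟨h1, h2, h3, h4, h5, h6⟩
  have u : ∀ l : List (ℕ × H (F.X A')), ∀ x ∈ std l, (l.get x.1).1 = x.2.1 :=
    fun _ _ a => congrArg _ (mem_std a)
  refine ⟨fun l₂ l₃ => sw_unlabel fun n T hT => ⟨_, h.sw_one d (j + 1 - Fintype.card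
    (Fin l₂.length)) (fun s => (l₃.get s).1) hW (enum_std l₂) (std l₃), fun M p => ?_⟩,
    fun l₁ l₃ l₂ l₂' p => ?_, fun l₁ l₂ => sw_unlabel fun n T hT => ?_⟩
  · rw [← h.cor_eq d hR j ((hT.perm p.symm).congr (by simp only [List.map_map]; rfl)) (enum_std l₂)
      (enum_std l₃) (u l₃), std_snd, std_snd, List.map_map]
    rfl
  · obtain ⟨M, a, rfl⟩ := exists_perm_map (p.symm.trans (.of_eq (std_snd l₂).symm))
    have b := (enum_std l₂).perm a.symm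
    have c := h.cor_eq d hR j (t := fun s => (l₃.get s).1) (enum_std l₁) b (enum_std l₃) (u l₃)
    rw [std_snd, std_snd, Fintype.card_fin] at c
    rw [c, Fam.cor_eq_std]
    refine h.corL_congr d _ _ h rfl (enum_std l₂) b fun ch Z hz _ => .inl ?_
    rw [clL_fsW Z e _ (enum_std l₂).1, clL_fsW Z e _ b.1, (a.map _).prod_eq'
      (List.pairwise_of_forall_mem_list (List.forall_mem_map.2 fun x _ y _ =>
        Ch.Hev.commute (nod_mem hz x) y))]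
  · obtain ⟨t, ht⟩ := exists_fun hT
    refine ⟨_, h.sw_three d (j + 1 - Fintype.card (Fin l₂.length)) t hW (enum_std l₂) (std l₁),
      fun M p => ?_⟩
    rw [← h.cor_eq d hR j (enum_std l₁) (enum_std l₂)
      ((hT.perm p.symm).congr (by simp only [List.map_map]; rfl)) (List.forall_mem_map.2 fun x a =>
        ht x.1 (p.subset (List.mem_map_of_mem a))), std_snd, std_snd, List.map_map]
    rfl

theorem St.res : St.Res := by
  intro S Λ R J K _ _ _ _ _ _ F δ k e A A' h5 h6 h1 h2 h3 h4 d j l₁ l₂ l₃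
  rw [Fam.cor_eq_std, Fam.cor_eq_corL]
  refine Fam.CorOk.corL_congr d _ _ ⟨h1, h2, h3, h4, h5, h6⟩ ⟨h1, h2, h3, h4, .rfl, .rfl⟩ rfl
    (enum_std l₂) (enum_std l₂) fun ch Z hz a => .inl ?_
  simp only [clL_fsW Z e _ (enum_std l₂).1, List.map_map, comp_def, ins, Prod.map, id,
    cl_ev_rs hz _ (a _), cl_ev_rs hz _ fun _ b => Ch.vl_mem (hz.sol b) _]

theorem St.par : St.Par := by
  intro S Λ R J K _ _ _ _ _ _ F δ k e A A' h5 h6 h1 h2 h3 h4 d j l₁ l₂ l₃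
  have h : F.CorOk k e δ A A' := ⟨h1, h2, h3, h4, h5, h6⟩
  rw [Fam.cor_eq_corL, Fam.cor_eq_std]
  refine h.corL_congr d _ _ h rfl (enum_std l₂) (enum_std l₂) fun ch Z hz a => .inr ?_
  have b : ∀ n, ∀ x ∈ Z, Ch.vl x n ∈ A := fun n _ b => h5 (Ch.vl_mem (hz.sol b) n)
  have c := fun s x hx => h6 (a s x hx)
  rw [clL_fsW Z e _ (enum_std l₂).1, clL_fsW Z e _ (enum_std l₂).1, Tq.parH_mul, Tq.parH_mul,
    Tq.parH_mul, Tq.parH_Hev (mul_mem (Fam.cl_tw_mem _) (par_mem hz h4.sub h4.ev)),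
    parH_prod fun x _ => Tq.parH_Hev (nod_mem hz x), List.map_map, List.map_map,
    parH_prod fun x _ => ?_, parH_prod fun x _ => ?_]
  · exact (congrArg _ (ev_eq_insL hz _ (c _) _)).trans
      ((isEv_insL hz _ _ _ _).trans (ev_eq_insL hz _ (c _) _).symm)
  · exact (congrArg _ (ins_eq hz _ (b _) _)).trans
      ((isEv_insL hz _ _ _ _).trans (ins_eq hz _ (b _) (x.2.1, _)).symm)

theorem St.pe : St.PE := by
  intro S Λ R J K _ _ _ _ _ _ F δ k P Θ B c₀ c A A' h5 h6 hB h1 h2 h3 h4 hc d j m a l₁ l₂ l₃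
  have h : F.CorOk k ⟨P, Θ, B, c₀⟩ δ A A' := ⟨h1, h2, h3, h4, h5, h6⟩
  have h' : F.CorOk k ⟨P, Θ, B, c₀ * c⟩ δ A A' :=
    ⟨h1, h2, h3, ⟨h4.sel, h4.re, h4.sub, mul_mem h4.ev hc⟩, h5, h6⟩
  rw [Fam.cor_eq_std, Fam.cor_eq_std, std_cons, std_cons]
  refine h.corL_congr (ν₁ := Fin (l₁.length + 1)) d _ _ h' rfl (enum_std l₂) (enum_std l₂)
    fun ch Z hz _ => .inl ?_
  have b : ∀ x ∈ Z, x.1 ∈ B := fun _ b => h4.sub (hz.sol b).1.1
  rw [clL_fsW Z _ _ (enum_std l₂).1, clL_fsW Z _ _ (enum_std l₂).1, List.map_cons, List.map_cons,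
    List.prod_cons, List.prod_cons, ins, ins,
    cl_ev_pB hz _ (fun _ b => h5 (Ch.vl_mem (hz.sol b) _)) hB, ← mul_assoc (_ ^ _),
    ← Ch.Hev.commute (par_mem hz h4.sub hc), hz.cl_par b, hz.cl_par b, hz.cl_par b, map_mul]
  simp only [mul_assoc]

theorem St.add (hW : St.Well) : St.Add := by
  intro S Λ R J K ν κ _ _ _ _ _ _ _ _ F δ k g d u P Q fs h1 h2 h3 hP hQ h4 h5
  obtain ⟨D, a, b, c, e, f, i⟩ := ((Fam.Iv.nf hW St.dg ⟨h1, h2, h3, hP, h4, h5⟩).and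
    ((Fam.Iv.nf hW St.dg ⟨h1, h2, h3, hP.and hQ, h4, h5⟩).and
      ((Fam.Iv.nf hW St.dg ⟨h1, h2, h3, hP.and hQ.not, h4, h5⟩).and
        ((F.eventually_bigD k).and (hP.2.and hQ.2))))).exists
  rw [a, b, c, Fam.sel_and e hP.1 hQ.1, Fam.sel_and e hP.1 hQ.not.1, Fam.sel_not e hQ.1,
    ← map_add, ← add_mul, ← hcls_add (cocycle_ind' (f.inter i)) (cocycle_ind' (f.inter i.compl)),
    ← ind_split]

end Vale.Agent.P269
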