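import Vale.Agent.P287Q.G.Bas.Defs
import Vale.Agent.P287Q.G.Glu.Diag0
import Vale.Agent.P269.Map.Gy
import Vale.Agent.P287Q.G.Prj.Tgt

set_option linter.unusedSectionVars false
set_option linter.style.haveILetI false

/-!
# The diagonal: actions, Kuranishi data, the local product structure
-/

namespace Vale.Agent.P269

open P291Z Set Function Topology Filter Orb Holo Module

variable {S S' Λ Λ' R J K K' : Type} [Fintype S] [Fintype S'] [Fintype Λ] [Fintype Λ'] [Fintype R]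
  [Fintype J] [Fintype K] [Fintype K']

namespace Dg0

theorem unit₁ {t : (S → ℂ) × (R → ℂ) × (R → ℂ)} (h : IsUnit t) : IsUnit (t.1, t.2.1) :=
  Prod.isUnit_iff.2 ⟨(Prod.isUnit_iff.1 h).1, (Prod.isUnit_iff.1 (Prod.isUnit_iff.1 h).2).1⟩

theorem unit₂ {t : (S → ℂ) × (R → ℂ) × (R → ℂ)} (h : IsUnit t) : IsUnit (t.1, t.2.2) :=
  Prod.isUnit_iff.2 ⟨(Prod.isUnit_iff.1 h).1, (Prod.isUnit_iff.1 (Prod.isUnit_iff.1 h).2).2⟩

section an

variable {P E E' : Type} [NormedAddCommGroup P] [NormedSpace ℂ P] [NormedAddCommGroup E]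
  [NormedSpace ℂ E] [NormedAddCommGroup E'] [NormedSpace ℂ E'] {f : P → E × E'} {x : P}

theorem a₁ (h : AnalyticAt ℂ f x) : AnalyticAt ℂ (fun y => (f y).1) x := analyticAt_fst.comp h

theorem a₂ (h : AnalyticAt ℂ f x) : AnalyticAt ℂ (fun y => (f y).2) x := analyticAt_snd.comp h

theorem d₁ {f : ℂ → E × E'} {w : E × E'} (h : HasDerivAt f w 0) :
    HasDerivAt (fun y => (f y).1) w.1 0 := (hasFDerivAt_fst.comp_hasDerivAt 0 h :)

theorem d₂ {f : ℂ → E × E'} {w : E × E'} (h : HasDerivAt f w 0) :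
    HasDerivAt (fun y => (f y).2) w.2 0 := (hasFDerivAt_snd.comp_hasDerivAt 0 h :)

end an

theorem isAct2 (F : Wt S Λ R J) : IsAct F.act2 univ :=
  ⟨fun x _ => Prod.ext (F.actL_one _) (Prod.ext (congrArg Prod.snd (F.actT_one (x.1, x.2.1)) :)
      (congrArg Prod.snd (F.actT_one (x.1, x.2.2)) :)),
    fun a b _ _ x _ => Prod.ext (F.actL_mul _ _ _)
      (Prod.ext (congrArg Prod.snd (F.actT_mul a b (x.1, x.2.1)) :)
        (congrArg Prod.snd (F.actT_mul a b (x.1, x.2.2)) :)), fun _ _ _ _ => trivial,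
    fun a ha z _ => by
      have h1 : AnalyticAt ℂ Prod.fst (a, z) := analyticAt_fst
      have h2 : AnalyticAt ℂ Prod.snd (a, z) := analyticAt_snd
      exact (F.an_actL (a₁ h1) (a₁ h2) (Prod.isUnit_iff.1 ha).1).prod
        ((a₂ (F.an_actT h1 ((a₁ h2).prod (a₁ (a₂ h2))) ha)).prod
          (a₂ (F.an_actT h1 ((a₁ h2).prod (a₂ (a₂ h2))) ha)))⟩

theorem isAct3 (F : Wt S Λ R J) : IsAct F.act3 univ :=
  ⟨fun x _ => Prod.ext (F.actL_one _) (Prod.ext (congrArg Prod.snd (F.actT_one (x.1, x.2.1)) :)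
      (congrArg Prod.snd (F.actT_one (x.1, x.2.2)) :)),
    fun a b _ _ x _ => Prod.ext (F.actL_mul _ _ _)
      (Prod.ext (congrArg Prod.snd (F.actT_mul (a.1, a.2.1) (b.1, b.2.1) (x.1, x.2.1)) :)
        (congrArg Prod.snd (F.actT_mul (a.1, a.2.2) (b.1, b.2.2) (x.1, x.2.2)) :)),
    fun _ _ _ _ => trivial, fun a ha z _ => by
      have h1 : AnalyticAt ℂ Prod.fst (a, z) := analyticAt_fst
      have h2 : AnalyticAt ℂ Prod.snd (a, z) := analyticAt_snd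
      exact (F.an_actL (a₁ h1) (a₁ h2) (Prod.isUnit_iff.1 ha).1).prod
        ((a₂ (F.an_actT ((a₁ h1).prod (a₁ (a₂ h1))) ((a₁ h2).prod (a₁ (a₂ h2))) (unit₁ ha))).prod
          (a₂ (F.an_actT ((a₁ h1).prod (a₂ (a₂ h1))) ((a₁ h2).prod (a₂ (a₂ h2))) (unit₂ ha))))⟩

variable {F : Fam S Λ R J K}

theorem ivt3 (h : F.Inv) : Ivt F.act3 F.cone3 := fun _ ha _ hz =>
  ⟨h.cone_act (unit₁ ha) hz.1, h.cone_act (unit₂ ha) hz.2⟩

theorem ivt2 (h : F.Inv) : Ivt F.act2 F.cone2 := fun _ ha _ hz =>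
  ⟨⟨h.cone_act ha hz.1.1, h.cone_act ha hz.1.2⟩, fun j hj => congrArg (_ * ·) (hz.2 j hj)⟩

theorem ivt0 (h : F.Inv) : Ivt F.act2 F.dg0 := fun a ha z hz =>
  ⟨ivt2 h a ha z hz.1, congrArg (fun y => (F.actT a (z.1, y)).2) hz.2⟩

theorem mk_mem (h : F.Inv) {z : F.cone2} :
    (Quo.mk F.act2 z : F.X2) ∈ F.Δ2 ↔ z.1.2.1 = z.1.2.2 :=
  haveI := (isAct2 F.toWt).mono (subset_univ _) (ivt2 h)
  Quo.mem_part (B := {z : (Λ → ℂ) × (J → ℂ) × (J → ℂ) | z.2.1 = z.2.2}) (ivt0 h)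
    (Sp.of F.act2 z.1 z.2)

theorem isClosed_Δ2 (h : F.Inv) : IsClosed F.Δ2 := by
  refine (isQuotientMap_quot_mk.isClosed_preimage).1 ?_
  rw [show Quot.mk _ ⁻¹' F.Δ2 = {z : F.cone2 | z.1.2.1 = z.1.2.2} from Set.ext fun _ => mk_mem h]
  exact isClosed_eq (by fun_prop) (by fun_prop)

theorem lc3 (h : F.Inv) : IsLocallyClosed F.cone3 :=
  (h.lc_cone.preimage (f := fun z : (Λ → ℂ) × (J → ℂ) × (J → ℂ) => (z.1, z.2.1))
    (by fun_prop)).inter (h.lc_cone.preimage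
      (f := fun z : (Λ → ℂ) × (J → ℂ) × (J → ℂ) => (z.1, z.2.2)) (by fun_prop))

theorem lc2 (h : F.Inv) : IsLocallyClosed F.cone2 := by
  refine (lc3 h).inter (t := {z | ∀ j ∉ F.mov, z.2.1 j = z.2.2 j}) (IsClosed.isLocallyClosed ?_)
  simp only [ofPred_forall]
  exact isClosed_iInter fun j => isClosed_iInter fun _ => isClosed_eq (by fun_prop) (by fun_prop)

theorem diag_mem {z : (Λ → ℂ) × (J → ℂ)} (hz : z ∈ F.cone) : (z.1, z.2, z.2) ∈ F.cone2 :=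
  ⟨⟨hz, hz⟩, fun _ _ => rfl⟩

theorem bdd [DecidableEq R] (h : F.Good) {x : ℕ → (Λ → ℂ) × (J → ℂ)} {a : ℕ → (S → ℂ) × (R → ℂ)}
    {x₀ x₁} (h1 : ∀ n, IsUnit (a n)) (h2 : ∀ n, x n ∈ F.cone) (h3 : x₀ ∈ F.cone) (h4 : x₁ ∈ F.cone)
    (h5 : Tendsto x atTop (𝓝 x₀)) (h6 : Tendsto (fun n => F.actT (a n) (x n)) atTop (𝓝 x₁)) :
    ∃ C : ℕ, ∀ᶠ n in atTop, ‖a n‖ ≤ C := by
  by_contra k
  simp only [not_exists, not_eventually, not_le] at k
  obtain ⟨φ, k1, k2⟩ := extraction_forall_of_frequently k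
  exact h.prp (x ∘ φ) (a ∘ φ) _ _ (fun _ => h1 _) (fun _ => h2 _) h3 h4 (h5.comp k1.tendsto_atTop)
    (h6.comp k1.tendsto_atTop) (tendsto_atTop_mono (fun n => (k2 n).le) tendsto_natCast_atTop_atTop)

theorem fderiv_eqn (z : (Λ → ℂ) × (J → ℂ)) (k : K) (η : J → ℂ) :
    fderiv ℂ (F.eqn · k) z (0, η) = ∑ j, F.jac z k j * η j := by
  have d1 : HasDerivAt (fun ε : ℂ => (z.1, z.2 + ε • η)) ((0 : Λ → ℂ), η) 0 := by
    simpa using (hasDerivAt_const (0 : ℂ) z.1).prodMk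
      (((hasDerivAt_id (0 : ℂ)).smul_const η).const_add z.2)
  exact (HasFDerivAt.comp_hasDerivAt_of_eq (0 : ℂ) (Fam.an_eqn k z).differentiableAt.hasFDerivAt d1
    (by simp)).unique (Vir.hasDerivAt_eval ((F.fib z.1).F k) z.2 η)

/-- germs in the fibres are tangent to `vert` -/
theorem fderiv_mem {V : Type} [NormedAddCommGroup V] [NormedSpace ℂ V] {Φ : V → J → ℂ} {l : Λ → ℂ}
    {y : J → ℂ} {v₀ : V} (h : AnalyticAt ℂ Φ v₀) (e : ∀ᶠ v in 𝓝 v₀, (l, y, Φ v) ∈ F.cone2) (v : V) :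
    fderiv ℂ Φ v₀ v ∈ F.vert (l, Φ v₀) := by
  have d := h.differentiableAt.hasFDerivAt
  refine Fam.mem_vert.2 ⟨fun j hj => ?_, fun k => ?_⟩
  · exact congr($((hasFDerivAt_pi'.1 d j).unique ((hasFDerivAt_const (y j) v₀).congr_of_eventuallyEq
      (e.mono fun v a => (a.2 j hj).symm))) v)
  · rw [← fderiv_eqn]
    have d' := (Fam.an_eqn (F := F) k (l, Φ v₀)).differentiableAt.hasFDerivAt.comp v₀
      ((hasFDerivAt_const l v₀).prodMk d)
    exact congr($(d'.unique ((hasFDerivAt_const 0 v₀).congr_of_eventuallyEq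
      (e.mono fun v a => a.1.2.2.2 k))) v)

end Dg0

open Dg0

namespace Fam

variable {F : Fam S Λ R J K} {K₀ : RD R} {t t' : Coch F.X2}

theorem Reg.finrank_vert (hF : F.Inv) (h : F.Reg K₀) {z} (hz : z ∈ F.cone) :
    (Module.finrank ℂ (F.vert z) : ℤ) = F.rv K₀ := congrArg _ (Fam.finrank_vert' hF h hz)

theorem Reg.finrank_vert' (hF : F.Inv) (h : F.Reg K₀) {z} (hz : z ∈ F.cone) :
    Module.finrank ℂ (F.vert z) = (F.rv K₀).toNat := by
  rw [← h.finrank_vert hF hz, Int.toNat_natCast]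

/-- base change: the germs in the definition lie in the fibres over the parameters -/
theorem IsDiag.pull {F' : Fam S' Λ' R J K'} (hF : F.Inv) (hF' : F'.Inv) {p : (Λ' → ℂ) → Λ → ℂ}
    (hf : Tq.Eqv F'.act2 F.act2 F'.cone2 F.cone2 fun z => (p z.1, z.2))
    (hv : ∀ z ∈ F'.cone, F'.vert z = F.vert (p z.1, z.2)) (ht : F.IsDiag t) :
    F'.IsDiag (pull hf.qm t) := by
  refine ⟨cocycle_pull hf.qm.continuous ht.1, fun x hx => ?_, fun z hz => ?_⟩
  · obtain ⟨z, rfl⟩ := Tq.mk_surj x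
    exact (mk_mem hF').2 ((mk_mem hF (z := ⟨_, hf.maps z.2⟩)).1
      (ht.2.1 (supp_pull hf.qm.continuous t hx)))
  · obtain ⟨h1, h2⟩ := ht.2.2 (p z.1, z.2) (hf.maps (diag_mem hz)).1.1
    rw [hv z hz]
    refine ⟨h1.pull _, fun r O φ Φ a b c d e f g i => ?_⟩
    rw [pull_pull]
    exact h2 r O (fun v => ⟨_, hf.maps (φ v).2⟩) Φ a b c d e (fun v => by simp only [f v]) g i

theorem IsDiag.deg (hF : F.Inv) (hR : F.Reg K₀) (ht : F.IsDiag t) : IsDeg (2 * F.rv K₀) t := by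
  intro l hl
  cases l with
  | nil => exact t.2.1
  | cons x l =>
    have := (ht.2.2 _ x.out.2.1.1).1
    rw [hR.finrank_vert hF x.out.2.1.1] at this
    exact this _ hl

/-- **the local product structure** of `cone2` along the diagonal -/
theorem Reg.chart (hF : F.Inv) (h : F.Reg K₀) {z : (Λ → ℂ) × (J → ℂ)} (hz : z ∈ F.cone) {r : ℕ}
    (hr : finrank ℂ (F.vert z) = r) :
    ∃ (q : (J → ℂ) →L[ℂ] Fin r → ℂ) (G : ((Λ → ℂ) × (J → ℂ)) × (Fin r → ℂ) → J → ℂ),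
      AnalyticAt ℂ G (z, 0) ∧ G (z, 0) = z.2 ∧
      (∀ᶠ w in 𝓝 (z, 0), q (G w - w.1.2) = w.2 ∧ (w.1 ∈ F.cone → (w.1.1, w.1.2, G w) ∈ F.cone2)) ∧
      ∀ᶠ p in 𝓝 (z.1, z.2, z.2), p ∈ F.cone2 → G ((p.1, p.2.1), q (p.2.2 - p.2.1)) = p.2.2 := by
  classical
  obtain ⟨K₁, h⟩ := h.loc z hz
  let e : F.vert z ≃ₗ[ℂ] (Fin r → ℂ) := LinearEquiv.ofFinrankEq _ _ (by rw [hr, finrank_fin_fun])
  obtain ⟨q₀, hq⟩ := LinearMap.exists_extend (p := F.vert z) e.toLinearMap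
  let q := LinearMap.toContinuousLinearMap q₀
  let Θ : (Λ → ℂ) × (J → ℂ) × (J → ℂ) →
      (((Λ → ℂ) × (J → ℂ)) × (Fin r → ℂ)) × (K₁ → ℂ) × (↥F.movᶜ → ℂ) := fun p =>
    (((p.1, p.2.1), q (p.2.2 - p.2.1)), fun k => F.eqn (p.1, p.2.2) k - F.eqn (p.1, p.2.1) k,
      fun j => p.2.2 j - p.2.1 j)
  have a0 : AnalyticAt ℂ Prod.snd (z.1, z.2, z.2) := analyticAt_snd
  have a1 := analyticAt_fst.prod (a₁ a0)
  have a3 : AnalyticAt ℂ Θ (z.1, z.2, z.2) :=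
    (a1.prod ((q.analyticAt _).comp ((a₂ a0).sub (a₁ a0)))).prod
      ((analyticAt_pi_iff.2 fun k : K₁ => ((an_eqn k.1 _).comp (analyticAt_fst.prod (a₂ a0))).sub
        ((an_eqn k.1 _).comp a1)).prod (analyticAt_pi_iff.2 fun j : ↥F.movᶜ =>
          (analyticAt_pi_iff.1 (a₂ a0) j.1).sub (analyticAt_pi_iff.1 (a₁ a0) j.1)))
  have a4 : Θ (z.1, z.2, z.2) = ((z, 0), 0) := by
    simp only [Θ, sub_self, map_zero]
    rfl
  have a5 : Injective (fderiv ℂ Θ (z.1, z.2, z.2)) := by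
    rw [injective_iff_map_eq_zero]
    intro w hw
    have d1 : HasDerivAt (fun ε : ℂ => (z.1, z.2, z.2) + ε • w) w 0 := by
      simpa using ((hasDerivAt_id (0 : ℂ)).smul_const w).const_add (z.1, z.2, z.2)
    have d2 := HasFDerivAt.comp_hasDerivAt_of_eq (0 : ℂ) a3.differentiableAt.hasFDerivAt d1
      (by simp)
    rw [hw] at d2
    have b1 : w.1 = 0 := (d₁ d1).unique (d₁ (d₁ (d₁ d2)))
    have b2 : w.2.1 = 0 := (d₁ (d₂ d1)).unique (d₂ (d₁ (d₁ d2)))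
    have b3 : q w.2.2 = 0 := (HasDerivAt.unique (by
      simpa [Θ, b2] using ((hasDerivAt_id (0 : ℂ)).smul_const (q w.2.2))) (d₂ (d₁ d2)) :)
    have b4 : ∀ j ∉ F.mov, w.2.2 j = 0 := fun j hj => (HasDerivAt.unique (by
      simpa [Θ, b2] using ((hasDerivAt_id (0 : ℂ)).mul_const (w.2.2 j)))
        (hasDerivAt_pi.1 (d₂ (d₂ d2)) ⟨j, hj⟩) :)
    have b5 : ∀ k ∈ K₁, ∑ j, F.jac z k j * w.2.2 j = 0 := fun k hk => (HasDerivAt.unique (by
      have := (Vir.hasDerivAt_eval ((F.fib z.1).F k) z.2 w.2.2).sub_const (F.eqn z k)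
      simp only [Θ, comp_def, Prod.fst_add, Prod.snd_add, Prod.smul_fst, Prod.smul_snd, b1, b2,
        smul_zero, add_zero]
      exact this) (hasDerivAt_pi.1 (d₁ (d₂ d2)) ⟨k, hk⟩) :)
    have b6 : w.2.2 ∈ F.vert z := mem_vert.2 ⟨b4, (h.jac hF hz).red _ b4 b5⟩
    have b7 : e ⟨_, b6⟩ = 0 := by rw [← b3]; exact congr($hq ⟨_, b6⟩).symm
    exact Prod.ext b1 (Prod.ext b2 (congrArg Subtype.val (e.map_eq_zero_iff.1 b7)))
  obtain ⟨-, g, g1, g2, g3, g4⟩ := ift a3 (bijective_of_injective _ a5 (by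
    have := Fam.finrank_vert hF h hz
    have := Fintype.card_compl_set F.mov
    have := set_fintype_card_le_univ F.mov
    simp only [finrank_prod, finrank_fintype_fun_eq_card, Fintype.card_fin, Nat.card_eq_fintype_card,
      hr] at *
    omega))
  rw [a4] at g1 g2 g4
  have t1 : Tendsto (fun w : ((Λ → ℂ) × (J → ℂ)) × (Fin r → ℂ) =>
      (w, (0 : (K₁ → ℂ) × (↥F.movᶜ → ℂ)))) (𝓝 (z, 0)) (𝓝 ((z, 0), 0)) :=
    (Continuous.prodMk_left _).tendsto _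
  have t2 : AnalyticAt ℂ (fun w => (g (w, 0)).2.2) (z, 0) :=
    a₂ (a₂ (g1.comp_of_eq (analyticAt_id.prod analyticAt_const) rfl))
  have t3 : Tendsto (fun w : ((Λ → ℂ) × (J → ℂ)) × (Fin r → ℂ) => (w.1.1, (g (w, 0)).2.2))
      (𝓝 (z, 0)) (𝓝 z) := by
    have := (continuousAt_fst (p := (z, (0 : Fin r → ℂ)))).fst.prodMk t2.continuousAt
    rwa [ContinuousAt, g2] at this
  refine ⟨q, fun w => (g (w, 0)).2.2, t2, congrArg (·.2.2) g2, ?_, g3.mono fun p a b => ?_⟩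
  · filter_upwards [t1.eventually g4, t3.eventually (h.cut),
      t3.eventually (hF.openU.mem_nhds (F.mem_cone.1 hz).2.1)] with w a b c
    have e1 : (g (w, 0)).1 = w.1.1 := congrArg (·.1.1.1) a
    have e2 : (g (w, 0)).2.1 = w.1.2 := congrArg (·.1.1.2) a
    have e3 : ∀ j ∉ F.mov, w.1.2 j = (g (w, 0)).2.2 j := fun j hj =>
      e2 ▸ (sub_eq_zero.1 (congrArg (·.2.2 ⟨j, hj⟩) a)).symm
    refine ⟨e2 ▸ congrArg (·.1.2) a, fun hw => ?_⟩
    have e4 := bs_congr hF (F.mem_cone.1 hw).1 e3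
    refine ⟨⟨hw, F.mem_cone.2 ⟨e4, c, b e4 fun k hk => ?_⟩⟩, e3⟩
    have e5 := sub_eq_zero.1 (congrArg (·.2.1 ⟨k, hk⟩) a)
    rw [e1, e2] at e5
    exact e5.trans ((F.mem_cone.1 hw).2.2 k)
  · refine Eq.trans (congrArg (fun w => (g (_, w)).2.2) (Prod.ext (funext fun k => ?_)
      (funext fun j => (sub_eq_zero.2 (b.2 j j.2).symm).symm))) (congrArg (·.2.2) a)
    exact (sub_eq_zero.2 (((F.mem_cone.1 b.1.2).2.2 k).trans ((F.mem_cone.1 b.1.1).2.2 k).symm)).symm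

/-- the fibre of a chart -/
theorem fibre_chart {z : (Λ → ℂ) × (J → ℂ)} (hz : z ∈ F.cone) {r : ℕ}
    (hr : finrank ℂ (F.vert z) = r) {q : (J → ℂ) →L[ℂ] Fin r → ℂ}
    {G : ((Λ → ℂ) × (J → ℂ)) × (Fin r → ℂ) → J → ℂ} (h1 : AnalyticAt ℂ G (z, 0))
    (h2 : G (z, 0) = z.2) (h3 : ∀ᶠ w in 𝓝 (z, 0), q (G w - w.1.2) = w.2 ∧
      (w.1 ∈ F.cone → (w.1.1, w.1.2, G w) ∈ F.cone2)) :
    AnalyticAt ℂ (fun v => G (z, v)) 0 ∧
      (∀ᶠ v in 𝓝 0, q (G (z, v) - z.2) = v ∧ (z.1, z.2, G (z, v)) ∈ F.cone2) ∧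
      Injective (fderiv ℂ (fun v => G (z, v)) 0) ∧
      (fderiv ℂ (fun v => G (z, v)) 0).range = F.vert z := by
  have a : AnalyticAt ℂ (fun v => G (z, v)) 0 :=
    h1.comp_of_eq (analyticAt_const.prod analyticAt_id) rfl
  have b := ((Continuous.prodMk_right z).tendsto 0).eventually h3
  have c := injective_fderiv_of_leftInv (g := fun y => q (y - z.2))
    ((q.analyticAt _).comp (analyticAt_id.sub analyticAt_const)) a (b.mono fun _ h => h.1)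
  refine ⟨a, b.mono fun _ h => ⟨h.1, h.2 hz⟩, c, Submodule.eq_of_le_of_finrank_eq ?_ ?_⟩
  · rintro _ ⟨v, rfl⟩
    have := fderiv_mem (F := F) (l := z.1) (y := z.2) a (b.mono fun _ h => h.2 hz) v
    rwa [h2] at this
  · rw [hr, LinearMap.finrank_range_of_inj c, finrank_fin_fun]

theorem vert_le {F' : Fam S' Λ' R J K'} (hF : F.Inv) (h : F.Reg K₀) (hm : F'.mov = F.mov) {l l'}
    (e : ∀ y, (l, y) ∈ F.cone → (l', y) ∈ F'.cone) {y} (hy : (l, y) ∈ F.cone) :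
    F.vert (l, y) ≤ F'.vert (l', y) := by
  obtain ⟨q, G, h1, h2, h3, -⟩ := h.chart hF hy rfl
  obtain ⟨a, b, -, c⟩ := fibre_chart hy rfl h1 h2 h3
  rw [← c]
  rintro _ ⟨v, rfl⟩
  have := fderiv_mem (F := F') (l := l') (y := y) a
    (b.mono fun _ h => ⟨⟨e _ h.2.1.1, e _ h.2.1.2⟩, hm ▸ h.2.2⟩) v
  rwa [h2] at this

/-- the vertical tangent space only depends on the cone -/
theorem vert_eq {F' : Fam S' Λ' R J K'} {K₀' : RD R} (hF : F.Inv) (hF' : F'.Inv) (h : F.Reg K₀)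
    (h' : F'.Reg K₀') (hm : F'.mov = F.mov) {l l'} (e : ∀ y, (l', y) ∈ F'.cone ↔ (l, y) ∈ F.cone)
    {y} (hy : (l, y) ∈ F.cone) : F'.vert (l', y) = F.vert (l, y) :=
  le_antisymm (vert_le hF' h' hm.symm (fun y => (e y).1) ((e y).2 hy))
    (vert_le hF h hm (fun y => (e y).2) hy)

theorem Inv.ok_dg (hF : F.Inv) (hR : F.Reg K₀) : F.dgD.Ok F.act2 F.cone2 0 (F.rv K₀).toNat where
  fin := inferInstanceAs (FiniteDimensional ℂ (⊤ : Submodule ℂ (J → ℂ)))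
  rep := ⟨fun _ _ _ _ => trivial, fun _ _ _ _ _ _ => funext fun _ => mul_add _ _ _,
    fun _ _ _ _ _ => funext fun _ => mul_left_comm _ _ _,
    fun q _ => congrArg Prod.snd (F.actT_one (0, q)),
    fun _ _ _ _ _ _ => funext fun j => congrFun (congrArg Prod.snd (F.actT_mul _ _ _)) j,
    fun _ _ => continuous_pi fun j => (continuous_wt j).mul continuous_const⟩
  fam := ⟨fun _ _ => bot_le, isClosed_eq continuous_snd continuous_const, fun _ _ => finrank_bot ℂ _,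
    fun _ _ _ _ _ hq => funext fun j => mul_eq_zero_of_right _ (congrFun hq j)⟩
  mem _ _ := trivial
  cont := (continuous_snd.snd.sub continuous_snd.fst).continuousOn
  eqv _ _ _ _ := funext fun _ => (mul_sub _ _ _).symm
  obs_closed := (isClosed_eq (f := fun z : F.cone2 × (J → ℂ) => z.1.1.2.2 - z.1.1.2.1) (by fun_prop)
    (continuous_const (y := 0))).inter ((isClosed_vert (F := F)).preimage
      (f := fun z : F.cone2 × (J → ℂ) => ((z.1.1.1, z.1.1.2.1), z.2)) (by fun_prop))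
  obs_rank _ hx _ := (hR.finrank_vert' hF hx.1.1).trans (zero_add _).symm
  obs_inv _ _ _ _ ha _ hf := hF.vert_act ha hf
  le_obs _ _ _ := bot_le
  obs_le _ _ _ := le_top
  cone x _ hx w y c u h1 h2 h3 h4 := by
    refine mem_vert_of_tendsto (y := y) (l := atTop) h1 ?_ (c := fun n => -c n)
      (h4.congr fun n => (congrArg (_ + ·) (h3 n)).trans ?_)
    · rwa [show x = (x.1, x.2.1, x.2.1) from Prod.ext rfl (Prod.ext rfl (sub_eq_zero.1 hx))] at h2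
    · rw [add_zero, neg_smul, ← smul_neg, neg_sub]
      rfl

variable [DecidableEq R]

theorem Good.fp2 (h : F.Good) : Mono.FP F.act2 F.cone2 :=
  haveI := isAct2 F.toWt
  haveI := h.fp
  Tq.fp_of (ivt2 h.toInv) (lc2 h.toInv) (fun _ ha z hz e => congrArg Units.val
    (h.fp.free (Sp.of F.actT (z.1, z.2.1) hz.1.1) ha.unit
      (Sp.ext (Prod.ext (congrArg (·.1) e) (congrArg (·.2.1) e)))))
    fun x a _ _ h1 h2 h3 h4 h5 h6 => h.prp (fun n => ((x n).1, (x n).2.1)) a _ _ h1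
      (fun n => (h2 n).1.1) h3.1.1 h4.1.1 (h5.fst_nhds.prodMk_nhds h5.snd_nhds.fst_nhds)
      (h6.fst_nhds.prodMk_nhds h6.snd_nhds.fst_nhds)

theorem Good.fp3 (h : F.Good) : Mono.FP F.act3 F.cone3 :=
  haveI := isAct3 F.toWt
  haveI := h.fp
  Tq.fp_of (ivt3 h.toInv) (lc3 h.toInv) (fun a ha z hz e => by
    have a1 : (a.1, a.2.1) = 1 := congrArg Units.val (h.fp.free (Sp.of F.actT (z.1, z.2.1) hz.1)
      (unit₁ ha).unit (Sp.ext (Prod.ext (congrArg (·.1) e) (congrArg (·.2.1) e))))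
    have a2 : (a.1, a.2.2) = 1 := congrArg Units.val (h.fp.free (Sp.of F.actT (z.1, z.2.2) hz.2)
      (unit₂ ha).unit (Sp.ext (Prod.ext (congrArg (·.1) e) (congrArg (·.2.2) e))))
    exact Prod.ext (congrArg (·.1) a1) (Prod.ext (congrArg (·.2) a1) (congrArg (·.2) a2)))
    fun x a x₀ x₁ h1 h2 h3 h4 h5 h6 h7 => by
      obtain ⟨C, a1⟩ := bdd h (fun n => unit₁ (h1 n)) (fun n => (h2 n).1) h3.1 h4.1
        (h5.fst_nhds.prodMk_nhds h5.snd_nhds.fst_nhds)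
        (h6.fst_nhds.prodMk_nhds h6.snd_nhds.fst_nhds)
      obtain ⟨C', a2⟩ := bdd h (fun n => unit₂ (h1 n)) (fun n => (h2 n).2) h3.2 h4.2
        (h5.fst_nhds.prodMk_nhds h5.snd_nhds.snd_nhds)
        (h6.fst_nhds.prodMk_nhds h6.snd_nhds.snd_nhds)
      obtain ⟨n, ⟨b1, b2⟩, b3⟩ := ((a1.and a2).and (h7.eventually_gt_atTop (max (C : ℝ) C'))).exists
      exact b3.not_ge (max_le ((le_max_left _ _).trans (b1.trans (le_max_left _ _)))
        (max_le_max ((le_max_right _ _).trans b1) ((le_max_right _ _).trans b2)))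

theorem Good.nice2 (h : F.Good) : P291Z.Nice F.X2 := haveI := h.fp2; inferInstance

/-- the diagonal is the zero set of Kuranishi data with obstruction bundle `vert` -/
theorem Good.gd_dg (h : F.Good) (hR : F.Reg K₀) :
    F.dgD.Gd F.act2 F.dg0 F.cone2 0 (F.rv K₀).toNat :=
  haveI := h.fp2
  haveI := isAct2 F.toWt
  ⟨⟨fun _ a => a.1, ⟨univ, isOpen_univ, (inter_univ _).symm⟩, inferInstance, Tq.orb _ _,
    fun _ hx => ((Submodule.mem_bot ℂ).trans (sub_eq_zero.trans eq_comm)).trans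
      (and_iff_right hx).symm⟩, h.ok_dg hR⟩

theorem Good.range_dg0 (h : F.Good) (e : F.dg0 ⊆ F.cone2) : range (Quo.incl F.act2 e) = F.Δ2 := by
  haveI := h.fp2
  haveI := (isAct2 F.toWt).mono (subset_univ _) (ivt0 h.toInv)
  rw [Quo.range_incl]
  exact Set.ext fun x => and_iff_right x.out.2

end Fam

end Vale.Agent.P269
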