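import Vale.Agent.P287Q.G.Bas.NumA
import Vale.Agent.P287Q.G.Bas.Lv

/-!
# Correlators with labelled insertions
-/

set_option linter.unusedSectionVars false

namespace Vale.Agent.P269

open P291Z Set Function Topology Filter LG

variable {S Λ R J K ι ν κ ν₁ ν₃ ν₁' ν₃' κ' : Type} [Fintype S] [Fintype Λ] [Fintype R] [Fintype J]
  [Fintype K] [Fintype ι] [DecidableEq ι] [Fintype ν] [Fintype κ] [Fintype ν₁] [Fintype ν₃]
  [Fintype ν₁'] [Fintype ν₃'] [Fintype κ']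

namespace Wt

variable (F : Wt S Λ R J) (e : F.Ex) (A A' : Set ((Λ → ℂ) × (J → ℂ)))
  (M₁ : List (ν₁ × ℕ × H (F.X A))) (M₂ : List (κ × ℕ × ℕ)) (M₃ : List (ν₃ × ℕ × H (F.X A')))

/-- The factors of a correlator with labelled insertions. -/
noncomputable def fsW : List (Fac F (ν₁ ⊕ ν₃) κ) :=
  .tw e.Θ :: .par e.B e.c :: ((M₁.map fun x => List.replicate x.2.1 (.psi (.inl (.inl x.1))) ++
      [.ev (.inl (.inl x.1)) A x.2.2]).flatten ++
    (M₂.map fun x => List.replicate x.2.1 (.psi (.inr (x.1, false))) ++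
      List.replicate x.2.2 (.psi (.inr (x.1, true))) ++ [.dg x.1]).flatten ++
    M₃.map fun x => .ev (.inl (.inr x.1)) A' x.2.2)

theorem fsC_eq_fsW {a b c : ℕ} (v₁ : Fin a → ℕ × H (F.X A)) (v₂ : Fin b → ℕ × ℕ)
    (v₃ : Fin c → ℕ × H (F.X A')) : F.fsC e A A' v₁ v₂ v₃ = F.fsW e A A' (.ofFn fun i => (i, v₁ i))
      (.ofFn fun i => (i, v₂ i)) (.ofFn fun i => (i, v₃ i)) := by
  simp only [fsW, List.map_ofFn]
  rfl

theorem fsW_re (a : ν₁ → ν₁') (b : κ → κ') (c : ν₃ → ν₃') :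
    (F.fsW e A A' M₁ M₂ M₃).map (Fac.re (Sum.map a c) b) = F.fsW e A A' (M₁.map (Prod.map a id))
      (M₂.map (Prod.map b id)) (M₃.map (Prod.map c id)) := by
  simp only [fsW, List.map_cons, List.map_append, List.map_flatten, List.map_map, comp_def,
    List.map_replicate, List.map_nil]
  rfl

theorem dq_fsW : (F.fsW e A A' M₁ M₂ M₃).filterMap Fac.dq = M₂.map Prod.fst := by
  have a : ∀ m n, (List.replicate m (.psi n : Fac F (ν₁ ⊕ ν₃) κ)).filterMap Fac.dq = [] :=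
    fun _ _ => List.filterMap_replicate_of_none rfl
  have b : ∀ n c, [(.ev n A c : Fac F (ν₁ ⊕ ν₃) κ)].filterMap Fac.dq = [] := fun _ _ => rfl
  rw [fsW, List.filterMap_cons_none rfl, List.filterMap_cons_none rfl]
  simp [List.filterMap_flatten, comp_def, List.filterMap_map, Fac.dq, a, b]
  exact List.map_eq_flatMap.symm

variable {F e A A' M₁ M₂ M₃}

theorem forall_fsW {P : Fac F (ν₁ ⊕ ν₃) κ → Prop} (h₁ : ∀ n, P (.psi n)) (h₂ : ∀ q, P (.dg q))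
    (h₃ : P (.tw e.Θ)) (h₄ : P (.par e.B e.c)) (h₅ : ∀ n c, P (.ev (.inl (.inl n)) A c))
    (h₆ : ∀ n c, P (.ev (.inl (.inr n)) A' c)) : ∀ f ∈ F.fsW e A A' M₁ M₂ M₃, P f := by
  simp only [fsW, List.forall_mem_cons, List.forall_mem_append, List.forall_mem_flatten,
    List.forall_mem_map, List.forall_mem_replicate]
  simp [*]

theorem dg_mem_fsW (h : ∀ q, q ∈ M₂.map Prod.fst) (q : κ) : .dg q ∈ F.fsW e A A' M₁ M₂ M₃ :=
  let ⟨_, a, b⟩ := List.mem_filterMap.1 ((F.dq_fsW e A A' M₁ M₂ M₃).symm ▸ h q :)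
  Fac.dq_eq_some.1 b ▸ a

end Wt

namespace Num

variable (F : Fam S Λ R J K) {ch : Ch ι J} (Z : Set (ch.WF ν κ Λ))

/-- The class of a descendant insertion. -/
noncomputable def ins (n : Ch.Mk ν κ) (A : Set ((Λ → ℂ) × (J → ℂ))) (x : ℕ × H (F.X A)) :
    H (Quo (Ch.actF F.toWt) Z) := F.cl Z (.psi n) ^ x.1 * F.cl Z (.ev n A x.2)

/-- The class of the cotangent line insertions at a node. -/
noncomputable def nod (x : κ × ℕ × ℕ) : H (Quo (Ch.actF F.toWt) Z) :=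
  F.cl Z (.psi (.inr (x.1, false))) ^ x.2.1 * F.cl Z (.psi (.inr (x.1, true))) ^ x.2.2

variable {F} {A A' : Set ((Λ → ℂ) × (J → ℂ))}

theorem clL_fsW (Z : Set (ch.WF (ν₁ ⊕ ν₃) κ Λ)) (e : F.Ex) (M₁ : List (ν₁ × ℕ × H (F.X A)))
    {M₂ : List (κ × ℕ × ℕ)} (hn : (M₂.map Prod.fst).Nodup) (M₃ : List (ν₃ × ℕ × H (F.X A'))) :
    F.clL Z (F.fsW e A A' M₁ M₂ M₃) = F.cl Z (.tw e.Θ) * F.cl Z (.par e.B e.c) *
      (M₁.map fun x => ins F Z (.inl (.inl x.1)) A x.2).prod * (M₂.map (nod F Z)).prod *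
      (M₃.map fun x => F.cl Z (.ev (.inl (.inr x.1)) A' x.2.2)).prod := by
  rw [Fam.clL_eq (by rwa [Wt.dq_fsW])]
  simp only [Wt.fsW, List.map_cons, List.map_append, List.map_flatten, List.map_map, comp_def,
    List.map_replicate, List.map_nil, List.prod_cons, List.prod_append, List.prod_flatten,
    List.prod_replicate, List.prod_nil, Fam.cn, mul_one, mul_assoc]
  rfl

variable {Z} {ℓ : R → ι → ℤ} (h : Ch.GZ F ℓ Z)
include h

theorem nod_mem (x : κ × ℕ × ℕ) : nod F Z x ∈ Ch.Hev _ :=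
  mul_mem (pow_mem (h.cl_psi_mem _) _) (pow_mem (h.cl_psi_mem _) _)

theorem par_mem {B : Set (Λ → ℂ)} (hB : F.B ⊆ B) {c : H (F.Bs B)} (hc : c ∈ Ch.Hev _) :
    F.cl Z (.par B c : Fac F.toWt ν κ) ∈ Ch.Hev _ :=
  h.cl_par (fun _ a => hB (h.sol a).1.1) c ▸ Ch.map_mem_Hev _ hc

variable (n : Ch.Mk ν κ) (hA : ∀ x ∈ Z, Ch.vl x n ∈ A)

/-- Evaluation classes times a power of the cotangent line class. -/
noncomputable def insL (m : ℕ) : H (F.X A) →ₗ[ℂ] H (Quo (Ch.actF F.toWt) Z) :=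
  LinearMap.mulLeft ℂ (F.cl Z (.psi n) ^ m) ∘ₗ (H.mapA (h.eqh_vl n hA).toEqv.qm).toLinearMap

theorem ins_eq (x : ℕ × H (F.X A)) : ins F Z n A x = insL h n hA x.1 x.2 :=
  congrArg (_ * ·) (h.cl_ev n hA x.2)

theorem ev_eq_insL (c : H (F.X A)) : F.cl Z (.ev n A c) = insL h n hA 0 c :=
  (h.cl_ev n hA c).trans ((one_mul _).symm.trans (congrArg (· * _) (pow_zero _).symm))

theorem isEv_insL (m : ℕ) : Fock.IsEv (parH _) (parH _) (insL h n hA m) := fun c =>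
  (Tq.parH_mul _ _).trans (congrArg₂ (· * ·) (Tq.parH_Hev (pow_mem (h.cl_psi_mem n) m))
    (Tq.parH_map _ c))

include hA

theorem cl_ev_rs (e : A ⊆ A') (c : H (F.X A')) :
    F.cl Z (.ev n A (F.rs e c)) = F.cl Z (.ev n A' c) := by
  rw [h.cl_ev n hA, h.cl_ev n fun x hx => e (hA x hx), Wt.rs_eq, H.map_map]
  exact congrArg (H.map · c) (ContinuousMap.ext fun z => Quot.inductionOn z fun _ => rfl)

theorem cl_ev_pB {B : Set (Λ → ℂ)} (hB : MapsTo Prod.fst A B) (c : H (F.Bs B)) (a : H (F.X A)) :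
    F.cl Z (.ev n A (F.pB A c * a)) =
      F.cl Z (.par B c : Fac F.toWt ν κ) * F.cl Z (.ev n A a) := by
  have k : Tq.Eqv F.actT F.actL A B Prod.fst :=
    ⟨hB, continuousOn_fst, fun t ht _ _ => ⟨t.1, (Prod.isUnit_iff.1 ht).1, rfl⟩⟩
  rw [h.cl_ev n hA, h.cl_ev n hA, h.cl_par fun x hx => hB (hA x hx), map_mul, Wt.pB, dif_pos hB,
    show hpull _ c = _ from (congrArg (hpull · c) (funext k.qm_out)).trans (Tq.hpull_eq _ c),
    H.map_map]
  exact congrArg (H.map · c * _) (ContinuousMap.ext fun z => Quot.inductionOn z fun _ => rfl)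

end Num

namespace Fam

variable (F : Fam S Λ R J K) [DecidableEq R] (k : ℕ) (e : F.Ex) (δ : J → ℕ)
  (A A' : Set ((Λ → ℂ) × (J → ℂ))) (d : R → ℤ)

/-- The correlators with labelled insertions; the contact orders are `t s + 1`. -/
noncomputable def corL (g : ℤ) (t : ν₃ → ℕ) (M₁ : List (ν₁ × ℕ × H (F.X A)))
    (M₂ : List (κ × ℕ × ℕ)) (M₃ : List (ν₃ × ℕ × H (F.X A'))) : ℂ :=
  F.inv k g d (fun n => (Sum.elim 0 (fun s => t s + 1) n : ℕ) • δ) (e.P _ _)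
    (F.fsW e A A' M₁ M₂ M₃)

theorem cor_eq_corL (j : ℤ) {α β : Type} (f : α → H (F.X A)) (f' : β → H (F.X A'))
    (l₁ : List (ℕ × α)) (l₂ : List (ℕ × ℕ)) (l₃ : List (ℕ × β)) :
    F.cor k e δ A A' d j (l₁.map (Prod.map id f)) l₂ (l₃.map (Prod.map id f')) =
      F.corL k e δ A A' d (j + 1 - l₂.length) (fun s => (l₃.get s).1)
        ((std l₁).map (Prod.map id (Prod.map id f))) (std l₂)
        ((std l₃).map (Prod.map id (Prod.map id f'))) := by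
  rw [cor_map, corF, Wt.fsC_eq_fsW, std, std, std, List.map_ofFn, List.map_ofFn]
  rfl

theorem cor_eq_std (j : ℤ) (l₁ : List (ℕ × H (F.X A))) (l₂ : List (ℕ × ℕ))
    (l₃ : List (ℕ × H (F.X A'))) : F.cor k e δ A A' d j l₁ l₂ l₃ =
      F.corL k e δ A A' d (j + 1 - l₂.length) (fun s => (l₃.get s).1) (std l₁) (std l₂) (std l₃) := by
  have := F.cor_ofFn k e δ A A' d j l₁.get l₂.get l₃.get
  rw [List.ofFn_get, List.ofFn_get, List.ofFn_get] at this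
  rw [this, corF, Wt.fsC_eq_fsW]
  rfl

/-- The standing hypotheses for correlators. -/
structure CorOk : Prop where
  nice : F.Nice δ
  cp : F.Cp
  big : F.Big k
  ex : F.ExOk k e
  hA : F.cone ⊆ A
  hA' : F.dvs δ ⊆ A'

variable {F k e δ A A'}

theorem ok_rel {t : ν₃ → ℕ} (h : F.dvs δ ⊆ A') (n : ν₃) (c : H (F.X A')) :
    Fac.Ok F (fun n => (Sum.elim 0 (fun s => t s + 1) n : ℕ) • δ)
      (.ev (.inl (.inr n)) A' c : Fac F.toWt (ν₁ ⊕ ν₃) κ) := fun _ hz =>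
  h ⟨hz.1, fun j hj => hz.2 _ rfl j (mul_ne_zero (Nat.succ_ne_zero _) hj)⟩

theorem CorOk.iv (h : F.CorOk k e δ A A') (g : ℤ) (t : ν₃ → ℕ) (M₁ : List (ν₁ × ℕ × H (F.X A)))
    {M₂ : List (κ × ℕ × ℕ)} (h₂ : Enum M₂) (M₃ : List (ν₃ × ℕ × H (F.X A'))) :
    F.Iv δ k g d (Sum.elim 0 fun s => t s + 1) (e.P _ _) (F.fsW e A A' M₁ M₂ M₃) :=
  ⟨h.nice, h.cp, h.big, h.ex.sel _ _ _ _ _, Wt.forall_fsW (fun _ => trivial) (fun _ => trivial)
    trivial h.ex.sub (fun _ _ _ a => h.hA a.1) (ok_rel h.hA'), Wt.dg_mem_fsW h₂.2⟩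

theorem CorOk.corL_re (h : F.CorOk k e δ A A') (hR : St.Rel) (g : ℤ) (a : ν₁ ≃ ν₁') (b : κ ≃ κ')
    (c : ν₃ ≃ ν₃') (t : ν₃' → ℕ) (M₁ : List (ν₁ × ℕ × H (F.X A))) {M₂ : List (κ × ℕ × ℕ)}
    (h₂ : Enum M₂) (M₃ : List (ν₃ × ℕ × H (F.X A'))) :
    F.corL k e δ A A' d g t (M₁.map (Prod.map a id)) (M₂.map (Prod.map b id))
      (M₃.map (Prod.map c id)) = F.corL k e δ A A' d g (fun s => t (c s)) M₁ M₂ M₃ := by
  have u : (fun n => (Sum.elim 0 (fun s => t s + 1) (a.sumCongr c n) : ℕ)) =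
      (Sum.elim 0 fun s => t (c s) + 1 : ν₁ ⊕ ν₃ → ℕ) := funext fun n => by cases n <;> rfl
  rw [corL, ← Wt.fsW_re]
  exact (hR F δ k g d (a.sumCongr c) b (Sum.elim 0 fun s => t s + 1) _ _ _
    (u.symm ▸ h.iv d g (fun s => t (c s)) M₁ h₂ M₃) (h.ex.re _ _ _ _ _ _)).trans
    (congrArg (fun u : ν₁ ⊕ ν₃ → ℕ => F.inv k g d (fun n => u n • δ) _ _) u)

/-- **the correlators do not depend on the labels** -/
theorem CorOk.cor_eq (h : F.CorOk k e δ A A') (hR : St.Rel) (j : ℤ) {t : ν₃ → ℕ}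
    {M₁ : List (ν₁ × ℕ × H (F.X A))} {M₂ : List (κ × ℕ × ℕ)} {M₃ : List (ν₃ × ℕ × H (F.X A'))}
    (h₁ : Enum M₁) (h₂ : Enum M₂) (h₃ : Enum M₃) (ht : ∀ x ∈ M₃, t x.1 = x.2.1) :
    F.cor k e δ A A' d j (M₁.map Prod.snd) (M₂.map Prod.snd) (M₃.map Prod.snd) =
      F.corL k e δ A A' d (j + 1 - Fintype.card κ) t M₁ M₂ M₃ := by
  obtain ⟨a, ea⟩ := h₁.exists_equiv'
  obtain ⟨b, eb⟩ := h₂.exists_equiv'
  obtain ⟨c, ec⟩ := h₃.exists_equiv'
  have r := h.corL_re d hR (j + 1 - Fintype.card κ) a b c t (std _) (enum_std _) (std _)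
  rw [show (std _).map (Prod.map a id) = M₁ from List.map_ofFn.trans ea.symm,
    show (std _).map (Prod.map b id) = M₂ from List.map_ofFn.trans eb.symm,
    show (std _).map (Prod.map c id) = M₃ from List.map_ofFn.trans ec.symm] at r
  rw [r, cor_eq_std, ← Fintype.card_congr b, Fintype.card_fin, show (fun s => t (c s)) = _ from
    funext fun n => ht (c n, _) ((congrArg (_ ∈ ·) ec).mpr ((List.mem_ofFn' _ _).2 ⟨n, rfl⟩))]

end Fam

end Vale.Agent.P269
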