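import Vale.Agent.P287Q.G.Gen.Num
import Vale.Agent.P287Q.G.Asm.Mon
import Vale.Agent.P287Q.G.PA.Low
import Vale.Agent.P269.Pt.Bnd

/-!
# The basic properties of the series
-/

set_option linter.unusedSectionVars false

namespace Vale.Agent.P269

open P291Z Set Function Topology Filter MvPolynomial Fock

section mon

variable {V : Type} [AddCommGroup V] [Module ℂ V] {p : Fock.Par ℂ V}

theorem par_monT (l₁ : List (ℕ × V)) (l₂ : List (ℕ × ℕ)) :
    Fock.par _ (monT p l₁ l₂) = monT p (l₁.map (Prod.map id p.σ)) l₂ := by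
  simp [monT, map_list_prod, List.map_map, comp_def, Fock.Par.triv]

theorem par_monR (D : Deg.Dv) (l₁ : List (ℕ × V)) (l₂ : List (ℕ × ℕ)) (l₃ : List (ℕ × D.H)) :
    Fock.par _ (monR p D l₁ l₂ l₃) =
      monR p D (l₁.map (Prod.map id p.σ)) l₂ (l₃.map (Prod.map id D.p.σ)) := by
  rw [monR, monR, map_mul, par_map, par_monT]
  simp [map_list_prod, List.map_map, comp_def, Fock.Par.triv, Prod.mk_zero_zero]

theorem ok_enO_single {H : Type} [AddCommGroup H] [Module ℂ H] (m : ℕ) (a : H) :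
    Deg.enO H (Finsupp.single m a) = ((m : ℂ) + 1) • Finsupp.single m a := by
  simp [Deg.enO]

theorem ok_isEv_enO (D : Deg.Dv) : IsEv (Deg.pR p D) (Deg.pR p D)
    ((0 : Module.End ℂ (VV V × Deg.NN)).prodMap (Deg.enO D.H)) := by
  rintro ⟨v, w⟩
  refine Prod.ext (by simp) ?_
  show (D.p.fs ℕ).σ (Deg.enO D.H w) = Deg.enO D.H ((D.p.fs ℕ).σ w)
  induction w using Finsupp.induction_linear with
  | zero => simp
  | add a b ha hb => simp only [map_add, ha, hb]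
  | single m a => rw [ok_enO_single, map_smul, Fock.Par.fs_σ_single, ok_enO_single]

theorem dv_enO_map (D : Deg.Dv) (y : Fock.S (Deg.pT p)) :
    dv (Deg.pR p D) ((0 : Module.End ℂ (VV V × Deg.NN)).prodMap (Deg.enO D.H))
      (Fock.map _ (Deg.isEv_inl _ _) y) = 0 := by
  induction y using Fock.induction with
  | h1 => simp
  | hι v x hx =>
    rw [map_mul, dv_mul (ok_isEv_enO (p := p) D), hx, map_ι, dv_ι]
    simp [Prod.mk_zero_zero]
  | hadd x y hx hy => rw [map_add, map_add, hx, hy, add_zero]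
  | hsmul c x hx => rw [map_smul, map_smul, hx, smul_zero]

theorem dv_enO_prod (D : Deg.Dv) (l₃ : List (ℕ × D.H)) :
    dv (Deg.pR p D) ((0 : Module.End ℂ (VV V × Deg.NN)).prodMap (Deg.enO D.H))
      (l₃.map fun x => ι (Deg.pR p D) (0, Finsupp.single x.1 x.2)).prod =
      (((l₃.map fun x => x.1 + 1).sum : ℕ) : ℂ) •
        (l₃.map fun x => ι (Deg.pR p D) (0, Finsupp.single x.1 x.2)).prod := by
  induction l₃ with
  | nil => simp
  | cons x l ih =>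
    have e : ((0 : Module.End ℂ (VV V × Deg.NN)).prodMap (Deg.enO D.H))
        (0, Finsupp.single x.1 x.2) = ((x.1 : ℂ) + 1) • (0, Finsupp.single x.1 x.2) := by
      rw [LinearMap.prodMap_apply, ok_enO_single, Prod.smul_mk, smul_zero, map_zero]
    rw [List.map_cons, List.prod_cons, dv_ι_mul (ok_isEv_enO (p := p) D), ih, e, map_smul, smul_mul_assoc,
      mul_smul_comm, ← add_smul, List.map_cons, List.sum_cons]
    push_cast
    rfl

theorem dv_enO_monR (D : Deg.Dv) (l₁ : List (ℕ × V)) (l₂ : List (ℕ × ℕ)) (l₃ : List (ℕ × D.H)) :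
    dv (Deg.pR p D) ((0 : Module.End ℂ (VV V × Deg.NN)).prodMap (Deg.enO D.H))
      (monR p D l₁ l₂ l₃) = (((l₃.map fun x => x.1 + 1).sum : ℕ) : ℂ) • monR p D l₁ l₂ l₃ := by
  rw [monR, dv_mul (ok_isEv_enO (p := p) D), dv_enO_map, zero_mul, zero_add, dv_enO_prod, mul_smul_comm]

theorem map_map_ev {W : Type} [AddCommGroup W] [Module ℂ W] {q : Fock.Par ℂ W} {i : V →ₗ[ℂ] W}
    (h : IsEv p q i) (l : List (ℕ × V)) :
    (l.map (Prod.map id p.σ)).map (Prod.map id i) =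
      (l.map (Prod.map id i)).map (Prod.map id q.σ) := by
  rw [List.map_map, List.map_map]
  exact List.map_congr_left fun x _ => Prod.ext rfl (h x.2).symm

theorem low_of_span {A : Type} [AddCommGroup A] [Module ℂ A] {s : Set A} (Z : ℤ → A →ₗ[ℂ] ℂ)
    (h : ∀ y ∈ s, ∃ J, ∀ j < J, Z j y = 0) {x : A} (hx : x ∈ Submodule.span ℂ s) :
    ∃ J, ∀ j < J, Z j x = 0 := by
  induction hx using Submodule.span_induction with
  | mem y hy => exact h y hy
  | zero => exact ⟨0, fun j _ => map_zero _⟩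
  | add x y _ _ hx hy =>
    obtain ⟨a, ha⟩ := hx
    obtain ⟨b, hb⟩ := hy
    exact ⟨min a b, fun j hj => by
      rw [map_add, ha j (lt_min_iff.1 hj).1, hb j (lt_min_iff.1 hj).2, add_zero]⟩
  | smul c x _ hx =>
    obtain ⟨a, ha⟩ := hx
    exact ⟨a, fun j hj => by rw [map_smul, ha j hj, smul_zero]⟩

end mon

variable {S Λ R J K : Type} [Fintype S] [Fintype Λ] [Fintype R] [Fintype J] [Fintype K]
  [DecidableEq R]

namespace Fam

variable {F : Fam S Λ R J K} {δ : J → ℕ} {k : ℕ} {e : F.Ex} {A A' : Set ((Λ → ℂ) × (J → ℂ))}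
  {d : R → ℤ} {j : ℤ} {l₁ : List (ℕ × H (F.X A))} {l₂ : List (ℕ × ℕ)} {l₃ : List (ℕ × H (F.X A'))}

/-- A nonzero correlator comes from a stable map; the contact orders add up to the degrees. -/
theorem cor_supp (h2 : St.Supp) (hN : F.Nice δ) (hk : F.Big k)
    (h : F.cor k e δ A A' d j l₁ l₂ l₃ ≠ 0) :
    (∃ m : AM Λ R J (Fin l₁.length ⊕ Fin l₃.length) (Fin l₂.length),
      m.Sol F ∧ m.Stable F.θ ∧ m.Typ (j + 1 - l₂.length) d) ∧
    ∀ b ∉ F.mov, b ∉ F.zer → ∑ r, F.w b r * d r = ((l₃.map fun x => x.1 + 1).sum * δ b : ℕ) := by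
  have e0 : (Sum.elim 0 fun s => ((l₃.get s).1 + 1) • δ : Fin l₁.length ⊕ Fin l₃.length → J → ℕ) =
      fun n => (Sum.elim 0 (fun s => (l₃.get s).1 + 1) n : ℕ) • δ := by
    funext n
    rcases n with n | n
    · exact (zero_smul ℕ δ).symm
    · rfl
  rw [cor, e0] at h
  obtain ⟨⟨m, a1, a2, a3, -⟩, a4⟩ := h2 F δ k _ d _ _ _ hN hk h
  refine ⟨⟨m, a1, a2, a3⟩, fun b b1 b2 => (a4 b b1 b2).trans ?_⟩
  rw [← Fin.sum_univ_fun_getElem, Finset.sum_mul]
  simp [Fintype.sum_sum_type]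

theorem cor_low (h2 : St.Supp) (hN : F.Nice δ) (hk : F.Big k) (d : R → ℤ)
    (l₁ : List (ℕ × H (F.X A))) (l₂ : List (ℕ × ℕ)) (l₃ : List (ℕ × H (F.X A'))) :
    ∃ J, ∀ j < J, F.cor k e δ A A' d j l₁ l₂ l₃ = 0 := by
  refine ⟨min 0 (-(Fintype.card (Ch.Mk (Fin l₁.length ⊕ Fin l₃.length) (Fin l₂.length)) +
    ∑ s, F.θ s * d s)), fun j hj => by_contra fun h => ?_⟩
  obtain ⟨⟨m, -, a2, a3⟩, -⟩ := cor_supp h2 hN hk h
  have := St.low m F.θ _ d a2 a3
  omega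

theorem grd_deg_eq {g : Deg.Grd (R → ℤ)} (hg : F.Grd g) {θ₀ : R → ℤ} {N : ℕ} (hA : F.Ample θ₀ N)
    (d : R → ℤ) : g.deg d = ∑ r, θ₀ r * d r := by
  have h := hg d
  have h1 : ∑ r, F.θ r * d r = 3 * ∑ r, θ₀ r * d r := by
    rw [hA.1, Finset.mul_sum]
    refine Finset.sum_congr rfl fun r _ => ?_
    rw [Pi.smul_apply, nsmul_eq_mul, Nat.cast_ofNat, mul_assoc]
  omega

theorem cor_pos (h2 : St.Supp) (hN : F.Nice δ) (hk : F.Big k) {g : Deg.Grd (R → ℤ)} (hg : F.Grd g)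
    (h : F.cor k e δ A A' d j l₁ l₂ l₃ ≠ 0) : 0 ≤ g.deg d := by
  obtain ⟨⟨m, a1, -, a3⟩, -⟩ := cor_supp h2 hN hk h
  obtain ⟨θ₀, N, hA, -⟩ := hk
  rw [grd_deg_eq hg hA]
  exact (a1.eff hA a3).1

theorem cor_fin (h2 : St.Supp) (hN : F.Nice δ) (hk : F.Big k) {g : Deg.Grd (R → ℤ)} (hg : F.Grd g)
    (n : ℤ) :
    {d | g.deg d = n ∧ ∃ j l₁ l₂ l₃, F.cor k e δ A A' d j l₁ l₂ l₃ ≠ 0}.Finite := by
  obtain ⟨θ₀, N, hA, -⟩ := id hk
  refine (AM.finite_eff (ν := Empty) (κ := Empty) hA n).subset ?_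
  rintro d ⟨h1, j, l₁, l₂, l₃, h⟩
  obtain ⟨⟨m, a1, -, a3⟩, -⟩ := cor_supp h2 hN hk h
  exact ⟨(grd_deg_eq hg hA d ▸ h1).le, m.re Function.Embedding.ofIsEmpty, _, a1, a3⟩

end Fam

theorem St.okA (h1 : St.Spec) (h2 : St.Supp) (h3 : St.Par) : St.OkA := by
  intro S Λ R J K _ _ _ _ _ _ F k e A C i g b hN hC hk he hA hi hg b1 b2 hξ
  have sp := (h1 F 0 k e (A' := A) C.p i hN hC hk he hA hi).1 rfl
  have ne : ∀ β, F.serA k e C.p i β ≠ 0 →
      ∃ j l₁ l₂, F.cor k e 0 A A β j l₁ l₂ [] ≠ 0 := fun β h => by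
    by_contra hc
    refine h (funext fun j => monT_ext fun l₁ l₂ => ?_)
    rw [sp]
    exact by_contra fun h0 => hc ⟨j, _, l₂, h0⟩
  refine ⟨⟨fun β j x => ?_, fun β x => ?_, fun β h => ?_⟩, fun β h => ?_, fun n => ?_⟩
  · refine LinearMap.congr_fun (monT_ext (Z := F.serA k e C.p i β j ∘ₗ (Fock.par _).toLinearMap)
      (Z' := F.serA k e C.p i β j) fun l₁ l₂ => ?_) x
    rw [LinearMap.comp_apply, AlgHom.toLinearMap_apply, par_monT, sp, sp, map_map_ev hi]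
    exact h3 F 0 k e hA (fun z hz => hA hz.1) hN hC hk he β j _ l₂ []
  · refine low_of_span (F.serA k e C.p i β) ?_ (mem_span_monT x)
    rintro _ ⟨l, rfl⟩
    simp only [sp]
    exact Fam.cor_low h2 hN hk β _ _ _
  · obtain ⟨j, l₁, l₂, h0⟩ := ne β h
    exact Fam.cor_pos h2 hN hk hg h0
  · obtain ⟨j, l₁, l₂, h0⟩ := ne β h
    rw [hξ, (Fam.cor_supp h2 hN hk h0).2 b b1 b2]
    rfl
  · refine (Fam.cor_fin (e := e) (A := A) (A' := A) h2 hN hk hg n).subset ?_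
    rintro β ⟨a1, a2⟩
    obtain ⟨j, l₁, l₂, h0⟩ := ne β a2
    exact ⟨a1, j, l₁, l₂, [], h0⟩

theorem St.okR (h1 : St.Spec) (h2 : St.Supp) (h3 : St.Par) : St.OkR := by
  intro S Λ R J K _ _ _ _ _ _ _ F b k e A A' C i D i' g hN hC hk he hA hA' hi hi' hg b1 b2
  have sp := (h1 F _ k e C.p i hN hC hk he hA hi).2 D i' hA' hi'
  have ne : ∀ β, F.serR k e C.p i (Pi.single b 1) D i' β ≠ 0 →
      ∃ j l₁ l₂ l₃, F.cor k e (Pi.single b 1) A A' β j l₁ l₂ l₃ ≠ 0 := fun β h => by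
    by_contra hc
    refine h (funext fun j => monR_ext fun l₁ l₂ l₃ => ?_)
    rw [sp]
    exact by_contra fun h0 => hc ⟨j, _, l₂, _, h0⟩
  have ok : (F.serR k e C.p i (Pi.single b 1) D i').Ok g := by
    refine ⟨fun β j x => ?_, fun β x => ?_, fun β h => ?_⟩
    · refine LinearMap.congr_fun (monR_ext
        (Z := F.serR k e C.p i (Pi.single b 1) D i' β j ∘ₗ (Fock.par _).toLinearMap)
        (Z' := F.serR k e C.p i (Pi.single b 1) D i' β j) fun l₁ l₂ l₃ => ?_) x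
      rw [LinearMap.comp_apply, AlgHom.toLinearMap_apply, par_monR, sp, sp, map_map_ev hi,
        map_map_ev hi']
      exact h3 F _ k e hA hA' hN hC hk he β j _ l₂ _
    · refine low_of_span (F.serR k e C.p i (Pi.single b 1) D i' β) ?_ (mem_span_monR D x)
      rintro _ ⟨l, rfl⟩
      simp only [sp]
      exact Fam.cor_low h2 hN hk β _ _ _
    · obtain ⟨j, l₁, l₂, l₃, h0⟩ := ne β h
      exact Fam.cor_pos h2 hN hk hg h0
  have en : ∀ β j x, F.serR k e C.p i (Pi.single b 1) D i' β j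
      (dv _ ((0 : Module.End ℂ _).prodMap (Deg.enO D.H)) x) =
      ((∑ r, F.w b r * β r : ℤ) : ℂ) * F.serR k e C.p i (Pi.single b 1) D i' β j x := by
    intro β j x
    refine LinearMap.congr_fun (monR_ext (Z := F.serR k e C.p i (Pi.single b 1) D i' β j ∘ₗ
      dv _ ((0 : Module.End ℂ _).prodMap (Deg.enO D.H)))
      (Z' := ((∑ r, F.w b r * β r : ℤ) : ℂ) • F.serR k e C.p i (Pi.single b 1) D i' β j)
      fun l₁ l₂ l₃ => ?_) x
    rw [LinearMap.comp_apply, dv_enO_monR, map_smul, LinearMap.smul_apply, sp]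
    by_cases h0 : F.cor k e (Pi.single b 1) A A' β j (l₁.map (Prod.map id i)) l₂
      (l₃.map (Prod.map id i')) = 0
    · rw [h0, smul_zero, smul_zero]
    · rw [(Fam.cor_supp h2 hN hk h0).2 b b1 b2, Pi.single_eq_same, mul_one, List.map_map,
        Int.cast_natCast]
      rfl
  have fin : ∀ n, {β | g.deg β = n ∧ F.serR k e C.p i (Pi.single b 1) D i' β ≠ 0}.Finite :=
    fun n => (Fam.cor_fin (e := e) (A := A) (A' := A') h2 hN hk hg n).subset
      fun β h => ⟨h.1, ne β h.2⟩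
  refine ⟨fun hξ => ⟨ok, fun β j x => ?_, fun n c => (fin n).subset fun β h => ⟨h.1, h.2.2⟩⟩,
    fun hξ => ⟨ok, fun β j x => ?_, fin⟩⟩
  · rw [en, hξ, Int.cast_neg, neg_neg]
  · rw [en, hξ]

end Vale.Agent.P269
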