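import Vale.Agent.P287Q.G.Vir.Std
import Vale.Agent.P287Q.G.Map.Eq0
import Vale.Agent.P287Q.G.Bas.Defs
import Vale.Agent.P287Q.G.Bas.Supp

set_option linter.unusedSectionVars false

/-!
# Independence of the equations
-/

namespace Vale.Agent.P269

open P291Z Set Function Topology Filter Module MvPolynomial Vir

variable {S Λ R J K K' ι ν κ : Type} [Fintype S] [Fintype Λ] [Fintype R] [Fintype J] [Fintype K]
  [Fintype K'] [Fintype ι] [DecidableEq ι] [Fintype ν] [Fintype κ]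

theorem ev_heq {α : Type} {X : α → Type} [∀ a, TopologicalSpace (X a)] {a a' : α} (e : a' = a)
    {v : BM (X a)} {v' : BM (X a')} (h : HEq v' v) (c : ∀ a, Coch (X a)) :
    ev v' (c a') = ev v (c a) := by
  subst e
  rw [eq_of_heq h]

/-- `Fam.IsDiag` in terms of the data on which it depends. -/
def Wt.IsDg (W : Wt S Λ R J) (C₂ : Set ((Λ → ℂ) × (J → ℂ) × (J → ℂ)))
    (C : Set ((Λ → ℂ) × (J → ℂ))) (V : (Λ → ℂ) × (J → ℂ) → Submodule ℂ (J → ℂ))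
    (t : Coch (Quo W.act2 C₂)) : Prop :=
  supp (δ t) = ∅ ∧ supp t ⊆ {z | (Quo.out z).1.2.1 = (Quo.out z).1.2.2} ∧
  ∀ z ∈ C, IsDeg (2 * finrank ℂ (V z)) t ∧
    ∀ (r : ℕ) (O : Set (Fin r → ℂ)) (φ : O → C₂) (Φ : (Fin r → ℂ) → J → ℂ), IsOpen O → 0 ∈ O →
      AnalyticOnNhd ℂ Φ O → InjOn Φ O → Φ 0 = z.2 → (∀ v : O, (φ v).1 = (z.1, z.2, Φ v)) →
      Injective (fderiv ℂ Φ 0) → (fderiv ℂ Φ 0).range = V z →
      Cohom {v | v.1 = 0} (pull (fun v => Quo.mk W.act2 (φ v)) t) (pull Subtype.val (tau r))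

theorem Wt.evN_congr {W : Wt S Λ R J} {C₂ C₂' C C' V V'} (h2 : C₂' = C₂) (h : C' = C)
    (hv : ∀ z ∈ C, V' z = V z) {ch : Ch ι J} (Z : Set (ch.WF ν κ Λ)) (q : κ) :
    (Ch.evN q C₂' (Classical.epsilon (W.IsDg C₂' C' V')) : Coch (Quo (Ch.actF W) Z)) =
      Ch.evN q C₂ (Classical.epsilon (W.IsDg C₂ C V)) := by
  subst h2 h
  refine congrArg (fun p => Ch.evN q _ (Classical.epsilon p)) (funext fun t => propext ?_)
  exact and_congr_right' (and_congr_right' (forall₂_congr fun z hz => by rw [hv z hz]))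

namespace Fam

variable {F : Fam S Λ R J K} {χ : K' → R → ℤ} {wk : K' → S → ℤ}
  {G : K' → MvPolynomial J (MvPolynomial Λ ℂ)} {U : Set ((Λ → ℂ) × (J → ℂ))} {mov zer : Set J}
  (hc : (F.alt χ wk G U mov zer).cone = F.cone) (h2 : (F.alt χ wk G U mov zer).cone2 = F.cone2)
  (hv : ∀ z ∈ F.cone, (F.alt χ wk G U mov zer).vert z = F.vert z)

theorem vir_alt [DecidableEq R] {k D : ℕ} {g : ℤ} {d : R → ℤ} {u : ν → J → ℕ} :
    HEq ((F.alt χ wk G U mov zer).vir κ k D g d u) (Ch.virF (F.alt χ wk G U mov zer)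
      ((F.alt χ wk G U mov zer).tdeg (F.sch ν κ k D g d))
      ((F.sch ν κ k D g d).cyc κ (F.alt χ wk G U mov zer) u)) :=
  congr_arg_heq (fun ch : Ch (Option R) J => Ch.virF (F.alt χ wk G U mov zer)
    ((F.alt χ wk G U mov zer).tdeg ch) (ch.cyc κ (F.alt χ wk G U mov zer) u))
    (rfl : (F.alt χ wk G U mov zer).sch ν κ k D g d = F.sch ν κ k D g d)

include hc h2 hv

theorem coch_alt {ch : Ch ι J} (Z : Set (ch.WF ν κ Λ)) (f : Fac F.toWt ν κ) :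
    (F.alt χ wk G U mov zer).coch Z f = F.coch Z f := by
  cases f
  exacts [rfl, rfl, rfl, Wt.evN_congr h2 hc hv Z _, rfl]

/-- **comparison of the invariants** -/
theorem inv_alt [DecidableEq R] {k : ℕ} {g : ℤ} {d : R → ℤ} {u : ν → J → ℕ}
    (h : ∀ᶠ D in atTop, (F.alt χ wk G U mov zer).Zs κ k D g d u = F.Zs κ k D g d u ∧
      HEq ((F.alt χ wk G U mov zer).vir κ k D g d u) (F.vir κ k D g d u))
    (P : AM Λ R J ν κ → Prop) (fs : List (Fac F.toWt ν κ)) :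
    (F.alt χ wk G U mov zer).inv k g d u P fs = F.inv k g d u P fs := by
  refine congrArg Classical.epsilon (funext fun z => propext (eventually_congr (h.mono fun D a =>
    Eq.congr_right ?_)))
  refine Eq.trans ?_ (ev_heq (X := fun Z => Quo (Ch.actF F.toWt) Z) a.1 a.2 fun Z =>
    ind (Ch.selQ F.toWt ℓs Z P) * (fs.map (F.coch Z)).prod)
  rw [← funext (coch_alt hc h2 hv _)]
  rfl

theorem cor_alt [DecidableEq R] {k : ℕ} {δ : J → ℕ}
    (h : ∀ (ν κ : Type) [Fintype ν] [Fintype κ] g d (u : ν → ℕ), ∀ᶠ D in atTop,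
      ((F.alt χ wk G U mov zer).Zs κ k D g d fun n => u n • δ) =
        (F.Zs κ k D g d fun n => u n • δ) ∧
      HEq ((F.alt χ wk G U mov zer).vir κ k D g d fun n => u n • δ)
        (F.vir κ k D g d fun n => u n • δ)) (e : F.Ex) (A A' d j l₁ l₂ l₃) :
    (F.alt χ wk G U mov zer).cor k e δ A A' d j l₁ l₂ l₃ = F.cor k e δ A A' d j l₁ l₂ l₃ := by
  rw [cor_eq, cor_eq]
  exact inv_alt hc h2 hv (h _ _ _ _ _) _ _

end Fam

theorem Ch.Vd.virF_cyc {ch : Ch ι J} {F : Fam S Λ R J K} {χ : K' → R → ℤ} {wk G U e e' K₀ K₀' ℓ}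
    {u : ν → J → ℕ} {O M d} (h : Ch.Vd F e (ch.cyc κ F u) O M d) (hs : ch.Std F e K₀ ℓ)
    (hs' : ch.Std (F.eqs χ wk G U) e' K₀' ℓ) (hc : (F.eqs χ wk G U).cone = F.cone) :
    ch.solF ν κ (F.eqs χ wk G U) ∩ ch.cyc κ (F.eqs χ wk G U) u = ch.solF ν κ F ∩ ch.cyc κ F u ∧
      HEq (Ch.virF (F.eqs χ wk G U) e' (ch.cyc κ (F.eqs χ wk G U) u)) (Ch.virF F e (ch.cyc κ F u)) :=
  ⟨congrArg (· ∩ ch.cyc κ F u) (Fam.solF_eqs hc), h.virF_eqs hs hs' hc⟩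

theorem St.e0 : St.E0 := by
  intro S Λ R J K K' _ _ _ _ _ _ _ F χ wk G U δ k e A A' hc h h' _ hk _ _ _ d j l₁ l₂ l₃
  obtain ⟨K₁, r'⟩ := h'.reg
  obtain ⟨K₀, r⟩ := h.reg
  refine Fam.cor_alt (mov := F.mov) (zer := F.zer) hc (Fam.cone2_eqs hc)
    (fun _ => Fam.vert_eqs h.toInv h'.toInv r r' hc) (fun ν κ _ _ g d u => ?_) e A A' d j l₁ l₂ l₃
  obtain ⟨_, _, -, -, a⟩ := h.vd κ hk g d u
  refine (a.and (Fam.eventually_bigD (F.eqs χ wk G U) k)).mono fun D hD => ?_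
  obtain ⟨⟨-, _, _, c, f⟩, b⟩ := hD
  have s : (F.sch ν κ k D g d).Std (F.eqs χ wk G U) ((F.eqs χ wk G U).tdeg (F.sch ν κ k D g d))
    K₁ ℓs := (Fam.chart_std (g := g) (n := Fintype.card (Ch.Mk ν κ)) (d := d) h'.toGood r' b :)
  have t := f.virF_cyc c.toStd s hc
  exact ⟨t.1, HEq.trans Fam.vir_alt t.2⟩

end Vale.Agent.P269
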