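import Vale.Agent.P287Q.G.Bas.Lv

/-!
# The empty curve
-/

set_option linter.unusedSectionVars false

namespace Vale.Agent.P269

open P291Z Set Function Topology Filter

namespace NormE

section gen

variable {A W P : Type} [NormedRing A] [NormedAlgebra ℂ A] [NormedAddCommGroup W] [NormedSpace ℂ W]
  [AddCommGroup P] [Module ℂ P] [TopologicalSpace P] {act : A → W → W} {ρ : A → P → P}
  {O Z : Set W} {B N : W → Submodule ℂ P}

theorem subsingleton_quo (h : O.Subsingleton) : Subsingleton (Quo act O) :=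
  haveI := (subsingleton_coe O).2 h
  Tq.mk_surj.subsingleton

/-- the virtual class of a point -/
theorem ev_one [Subsingleton A] (hO : O.Subsingleton) {x : W} (hx : x ∈ O) (hZ : Z ⊆ O)
    (h1 : act 1 x = x) (hN : N x = B x) (h0 : ρ 1 0 ∈ N x) {β t v} {σ : W → P}
    (hβ : IsFund act O β) (ht : IsThomOf act ρ O B N t)
    (hv : Gys (Quo.incl act hZ) (pull (sec act ρ O B N σ) t) β v) : ev v 1 = 1 := by
  have := subsingleton_quo (act := act) hO
  have c : IsChart act O 0 univ fun _ => ⟨x, hx⟩ :=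
    ⟨isOpen_univ, trivial, ⟨fun _ => x, analyticOnNhd_const, fun _ => rfl,
      fun _ _ _ => Subsingleton.elim _ _, fun _ _ _ => Subsingleton.elim _ _⟩,
      .of_continuous_injective_isOpenMap continuous_const (fun _ _ _ => Subsingleton.elim _ _)
        fun _ _ => isOpen_discrete _⟩
  have s : ∀ y : Tot act ρ O B N, y = Quot.mk _ ⟨(x, 0), hx, zero_mem _⟩ := by
    rintro ⟨⟨y, w⟩, a, b⟩
    obtain rfl : y = x := hO a hx
    exact (Quot.sound ⟨1, isUnit_one, h1.symm, sub_mem (hN.ge b) h0⟩).symm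
  obtain ⟨d, -, k⟩ := hβ
  have e := hv 1 (toFinite _).isCompact (by rw [cocycle_one]; exact empty_disjoint _)
  rw [map_one, one_mul] at e
  refine e.trans ((k 0 univ _ c).2 _ (Zc_of_compact (cocycle_pull continuous_of_discreteTopology
    ht.1)) (fun _ _ => Subsingleton.elim _ _) ?_)
  have := (ht.2.2 0 (fun _ => Quot.mk _ ⟨(x, 0), hx, zero_mem _⟩) ⟨x, hx, 0,
    fun v _ => Subsingleton.elim _ _, by simp [hN], fun v => ⟨⟨hx, zero_mem _⟩, rfl⟩⟩).1.pull
      (continuous_subtype_val (p := (· ∈ univ)))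
  rw [pull_pull]
  exact (congrArg (fun f => Cohom _ (pull f t) _) (funext fun _ => s _)).mpr
    (pull_pull _ _ t ▸ this :)

theorem eq_zero {X : Type} [TopologicalSpace X] [Subsingleton X] (x : X) {k : ℤ} (hk : k ≠ 0)
    {c : H X} (hc : H.IsDeg k c) : c = 0 :=
  (H.map_id (f := .const X x) (fun _ => Subsingleton.elim _ _) c).symm.trans
    (Ch.H.map_const_eq_zero x hk hc)

end gen

variable {Λ R J K ι ν κ : Type} [Fintype Λ] [Fintype R] [Fintype J] [Fintype K] [Fintype ι]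
  [DecidableEq ι] [Fintype ν] [Fintype κ] [IsEmpty ν] [IsEmpty κ]

/-- The chart of the empty curve. -/
structure Emp (ch : Ch ι J) : Prop where
  M : ∀ i, ch.M i = 0
  h : ∀ l, ch.h l = 0
  g : ch.g = 1
  m : ∀ i, ch.m i = 0

namespace Emp

variable {ch : Ch ι J} (h : Emp ch) {F : Fam Empty Λ R J K} {l : Λ → ℂ} {u : ν → J → ℕ}
include h

theorem sV (i : ι) : Subsingleton (Fin (ch.M i) → ℂ) := by rw [h.M]; infer_instance

theorem sE (l : Option J) : Subsingleton (ch.E l) := by rw [Ch.E, h.h]; infer_instance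

theorem sW : Subsingleton (ch.W (Ch.Mk ν κ)) :=
  haveI := h.sE
  inferInstanceAs (Subsingleton (_ × _ × _ × _))

theorem sA : Subsingleton (ch.AF ν κ Empty) :=
  haveI := h.sE
  haveI := h.sV
  inferInstance

theorem gr (x : ch.W (Ch.Mk ν κ)) : Ch.gr x = ∅ :=
  eq_empty_of_forall_notMem fun _ a => a.1 ch.o ((h.sV _).elim _ _)

theorem crv (x : ch.W (Ch.Mk ν κ)) : Ch.crv x = ∅ := by rw [Ch.crv, h.gr, image_empty]

theorem not_branch {x : ch.W (Ch.Mk ν κ)} {γ} : ¬IsBranch ch.o (Ch.crv x) γ := fun a =>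
  let ⟨_, b⟩ := a.mem.exists; (h.crv x).le b

theorem mem_base (x : ch.W (Ch.Mk ν κ)) : x ∈ ch.base _ := by
  have := h.sE
  refine ⟨fun _ _ => ⟨0, Subsingleton.elim _ _⟩, fun _ _ _ => Subsingleton.elim _ _, ?_,
    isEmptyElim, isEmptyElim, fun _ a => (h.not_branch a).elim,
    fun _ _ _ _ _ a => (h.not_branch a.1).elim⟩
  rw [h.crv]
  exact ⟨by simp, by simp, by simp, by simp, fun _ _ _ _ => ⟨0, by simp⟩, fun _ _ => by
    simp [h.g, h.m, Module.finrank_zero_of_subsingleton]⟩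

variable (hB : F.B = {l})
include hB

theorem mem : ((l, 0) : ch.WF ν κ Λ) ∈ ch.solF ν κ F ∩ ch.cyc κ F u := by
  have := h.sE
  have b : ((l, 0) : ch.WF ν κ Λ) ∈ ch.baseF ν κ F.B := ⟨hB.ge rfl, h.mem_base _, isEmptyElim⟩
  exact ⟨⟨b, b.2.1, fun _ a => ((h.gr _).le a).elim⟩, subset_closure ⟨⟨b,
    fun _ _ _ a => ((h.crv _).le a).elim, fun _ a => ((h.crv _).le a).elim,
    fun _ _ => Subsingleton.elim _ _, fun _ _ => isEmptyElim⟩,
    fun _ _ _ _ a => (h.not_branch a).elim⟩, b⟩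

theorem sub : (ch.cyc κ F u).Subsingleton := fun _ a _ b =>
  Prod.ext ((hB.le a.2.1).trans (hB.le b.2.1).symm) (h.sW.elim _ _)

theorem ev_one {e : K → ι → ℕ} {v} (hv : Ch.IsVirF F e (ch.cyc κ F u) v) : ev v 1 = 1 := by
  obtain ⟨O, hO, N, r, β, t, ⟨O', -, rfl⟩, hE, hβ, ht, hv⟩ := hv
  have := h.sA (ν := ν) (κ := κ)
  have s := (h.sub (κ := κ) (u := u) hB).anti (inter_subset_left (t := O'))
  have a := hO (h.mem hB)
  have b := s (hE.inv 1 isUnit_one _ a) a
  exact NormE.ev_one s a hO b (le_antisymm (hE.le_pol _ a) fun f hf =>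
    hE.van_le _ a ⟨hf, fun _ c => ((h.gr _).le c).elim⟩)
    (b ▸ hE.equi _ a 1 isUnit_one 0 (zero_mem _)) hβ ht hv

theorem cl_tw {ℓ : R → ι → ℤ} (hz : Ch.GZ F ℓ (ch.solF ν κ F ∩ ch.cyc κ F u))
    (Θ : MvPolynomial (J × ℕ) ℂ) : F.cl (ch.solF ν κ F ∩ ch.cyc κ F u) (.tw Θ) =
      MvPolynomial.eval (fun x => if x.2 = 0 then 1 else 0) Θ • 1 := by
  have := subsingleton_quo (act := Ch.actF F.toWt)
    ((h.sub (κ := κ) (u := u) hB).anti (inter_subset_right (s := ch.solF ν κ F)))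
  have e : (fun x : J × ℕ => PowerSeries.coeff x.2
      (Ch.indC F.toWt (ch.solF ν κ F ∩ ch.cyc κ F u) x.1)) =
      algebraMap ℂ _ ∘ fun x => if x.2 = 0 then 1 else 0 := funext fun ⟨j, m⟩ => by
    rcases eq_or_ne m 0 with rfl | hm
    · have := hz.act
      obtain ⟨r, a⟩ := hz.fld j
      rw [PowerSeries.coeff_zero_eq_constantCoeff_apply, Ch.indC_eq, map_mul, a.constCoeff hz.orb,
        one_mul, PowerSeries.constantCoeff_invOfUnit, inv_one, Units.val_one]
      simp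
    · rw [comp_apply, if_neg hm, map_zero]
      exact Subtype.ext (eq_zero (Quo.mk _ ⟨_, h.mem hB⟩) (by omega) (hz.indC_deg j m))
  rw [Fam.cl_tw, e, MvPolynomial.aeval_algebraMap_apply, Algebra.algebraMap_eq_smul_one]
  rfl

theorem ev_eq {ℓ : R → ι → ℤ} (hz : Ch.GZ F ℓ (ch.solF ν κ F ∩ ch.cyc κ F u)) {e : K → ι → ℕ} {v}
    (hv : Ch.IsVirF F e (ch.cyc κ F u) v) (Θ : MvPolynomial (J × ℕ) ℂ) :
    ev v (ind univ * ([Fac.tw Θ, .par univ 1].map (F.coch _)).prod) =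
      MvPolynomial.eval (fun x => if x.2 = 0 then 1 else 0) Θ := by
  have := subsingleton_quo (act := Ch.actF F.toWt)
    ((h.sub (κ := κ) (u := u) hB).anti (inter_subset_right (s := ch.solF ν κ F)))
  have b := Ch.GZ.cocycle_tw (F := F) (Z := ch.solF ν κ F ∩ ch.cyc κ F u) Θ
  have c : supp (δ (F.coch (ch.solF ν κ F ∩ ch.cyc κ F u) (.par univ 1))) = ∅ :=
    (congrArg (fun a => supp (δ a)) (hz.parF_eq (fun _ _ => mem_univ _) _)).trans
      (cocycle_pull (ContinuousMap.continuous _) (Mono.DgI.rep_cocycle _))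
  have i : ind (univ : Set (Ch.ModS F (ch.cyc κ F u))) = 1 :=
    fn_one ▸ Subtype.ext (funext fun l => by
      rcases l with _ | ⟨y, _ | ⟨z, l⟩⟩ <;> simp [ind, fn])
  rw [i, one_mul, List.map_cons, List.map_singleton, List.prod_cons, List.prod_singleton,
    P291Z.ev_eq, (cls_eq_iff_hcls (cocycle_mul b c) (cocycle_smul _ cocycle_one)).2
      ((hcls_mul b c).trans ((congrArg₂ (· * ·) (h.cl_tw hB hz Θ)
        ((hz.cl_par (fun _ _ => mem_univ _) 1).trans (map_one _))).trans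
        (by rw [mul_one, hcls_smul _ cocycle_one, hcls_one]))), ← P291Z.ev_eq,
    Orb.ev_smul _ _ (Zc_of_compact cocycle_one), h.ev_one hB hv, mul_one]

end Emp

theorem emp_chart {S : Type} [Fintype S] [DecidableEq R] (F : Fam S Λ R J K) (k D : ℕ) :
    Emp (F.sch ν κ k D 1 0) := by
  constructor <;> simp [Fam.chart, Tgt.chart]
  all_goals rintro (_ | _) <;> simp

theorem inv_eq [DecidableEq R] {F : Fam Empty Λ R J K} {δ : J → ℕ} {k : ℕ} {l : Λ → ℂ}
    (h : F.Nice δ) (hB : F.B = {l}) (hk : F.Big k) (u : ν → ℕ) (Θ : MvPolynomial (J × ℕ) ℂ) :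
    F.inv (κ := κ) k 1 0 (fun n => u n • δ) (fun _ => True) [.tw Θ, .par univ 1] =
      MvPolynomial.eval (fun x => if x.2 = 0 then 1 else 0) Θ := by
  obtain ⟨K₀, b, -, -, a⟩ := h.vd' (ν := ν) κ hk
  refine Fam.inv_eq_of_eventually ((F.eventually_bigD k).mono fun D hD => ?_)
  obtain ⟨U, n, c, e⟩ := a D hD 1 0 u
  rw [Fam.intg, Fam.sel_true hD]
  exact (emp_chart F k D).ev_eq hB (e.gz c.toStd) ((e.isVirF_iff c.toStd).2 rfl) Θ

end NormE

theorem St.norm : St.Norm := fun F δ k Θ A A' _ h hB hk =>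
  (F.cor_eq k _ δ A A' 0 0 [] [] []).trans
    (NormE.inv_eq (ν := Fin 0 ⊕ Fin 0) (κ := Fin 0) h hB hk _ Θ)

end Vale.Agent.P269
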