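import Vale.Agent.P269.LG.Alg
import Vale.Agent.P287Q.G.Prj.Tgt

/-!
# Algebraic preliminaries for the properties of the correlators
-/

namespace Vale.Agent.P269.Num

open Fock LG Filter P291Z

section sw

variable {K V ν μ : Type} [CommRing K] [AddCommGroup V] [Module K V] {p : Par K V}

theorem sw_of_eventually {α : Type} {l : Filter α} [l.NeBot] {W : List (ν × V) → K}
    {W' : α → List (ν × V) → K} (h : ∀ᶠ D in l, SW p (W' D))
    (e : ∀ M, ∀ᶠ D in l, W M = W' D M) : SW p W := by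
  have k : ∀ a b c, ∃ D, SW p (W' D) ∧ W a = W' D a ∧ W b = W' D b ∧ W c = W' D c :=
    fun a b c => (h.and ((e a).and ((e b).and (e c)))).exists
  constructor
  · intro L₁ n v w L₂
    obtain ⟨D, s, a, b, c⟩ := k (L₁ ++ (n, v + w) :: L₂) (L₁ ++ (n, v) :: L₂) (L₁ ++ (n, w) :: L₂)
    rw [a, b, c, s.add]
  · intro L₁ n z v L₂
    obtain ⟨D, s, a, b, -⟩ := k (L₁ ++ (n, z • v) :: L₂) (L₁ ++ (n, v) :: L₂) []
    rw [a, b, s.smul]
  · intro L₁ x y L₂ hy
    obtain ⟨D, s, a, b, -⟩ := k (L₁ ++ x :: y :: L₂) (L₁ ++ y :: x :: L₂) []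
    rw [a, b, s.ev _ _ _ _ hy]
  · intro L₁ x y L₂ hx hy
    obtain ⟨D, s, a, b, -⟩ := k (L₁ ++ x :: y :: L₂) (L₁ ++ y :: x :: L₂) []
    rw [a, b, s.od _ _ _ _ hx hy]

theorem exists_lab {α : Type} (l : List (μ × α)) : ∃ (n : ℕ) (M : List ((Fin n × μ) × α)),
    Enum (M.map Prod.fst) ∧ (M.map fun x => (x.1.2, x.2)) = l :=
  ⟨_, (std l).map fun x => ((x.1, x.2.1), x.2.2),
    (enum_std l).congr (by simp only [List.map_map]; rfl), by rw [List.map_map]; exact std_snd l⟩

/-- supersymmetry can be checked after a choice of labels -/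
theorem sw_unlabel {w : List (μ × V) → K}
    (h : ∀ (n : ℕ) (T : List (Fin n × μ)), Enum T → ∃ W : List ((Fin n × μ) × V) → K, SW p W ∧
      ∀ M, (M.map Prod.fst).Perm T → w (M.map fun x => (x.1.2, x.2)) = W M) : SW p w := by
  have one : ∀ (L₁ L₂ : List (μ × V)) (m : μ), ∃ (n : ℕ) (W : List ((Fin n × μ) × V) → K)
      (M₁ M₂ : List ((Fin n × μ) × V)) (i : Fin n × μ), SW p W ∧
      ∀ v, w (L₁ ++ (m, v) :: L₂) = W (M₁ ++ (i, v) :: M₂) := by
    intro L₁ L₂ m
    obtain ⟨n, M, hM, e⟩ := exists_lab (L₁ ++ (m, 0) :: L₂)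
    obtain ⟨M₁, M', rfl, rfl, e2⟩ := List.map_eq_append_iff.mp e
    obtain ⟨x, M₂, rfl, e3, rfl⟩ := List.map_eq_cons_iff.mp e2
    obtain ⟨W, s, k⟩ := h n _ hM
    refine ⟨n, W, M₁, M₂, x.1, s, fun v => ?_⟩
    rw [← k _ (.of_eq (by simp)), ← show x.1.2 = m from (Prod.ext_iff.1 e3).1]
    simp
  have two : ∀ (L₁ L₂ : List (μ × V)) (x y : μ × V), ∃ (n : ℕ) (W : List ((Fin n × μ) × V) → K)
      (M₁ M₂ : List ((Fin n × μ) × V)) (i j : Fin n × μ), SW p W ∧
      w (L₁ ++ x :: y :: L₂) = W (M₁ ++ (i, x.2) :: (j, y.2) :: M₂) ∧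
      w (L₁ ++ y :: x :: L₂) = W (M₁ ++ (j, y.2) :: (i, x.2) :: M₂) := by
    intro L₁ L₂ x y
    obtain ⟨n, M, hM, e⟩ := exists_lab (L₁ ++ x :: y :: L₂)
    obtain ⟨M₁, M', rfl, rfl, e2⟩ := List.map_eq_append_iff.mp e
    obtain ⟨a, M'', rfl, rfl, e3⟩ := List.map_eq_cons_iff.mp e2
    obtain ⟨b, M₂, rfl, rfl, rfl⟩ := List.map_eq_cons_iff.mp e3
    obtain ⟨W, s, k⟩ := h n _ hM
    refine ⟨n, W, M₁, M₂, a.1, b.1, s, ?_, ?_⟩
    · rw [← k _ (.refl _)]
      simp
    · rw [← k _ (((List.Perm.swap _ _ _).append_left _).map _)]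
      simp
  constructor
  · intro L₁ n u v L₂
    obtain ⟨_, W, M₁, M₂, i, s, e⟩ := one L₁ L₂ n
    rw [e, e, e, s.add]
  · intro L₁ n c v L₂
    obtain ⟨_, W, M₁, M₂, i, s, e⟩ := one L₁ L₂ n
    rw [e, e, s.smul]
  · intro L₁ x y L₂ hy
    obtain ⟨_, W, M₁, M₂, i, j, s, e, e'⟩ := two L₁ L₂ x y
    rw [e, e']
    exact s.ev _ _ _ _ hy
  · intro L₁ x y L₂ hx hy
    obtain ⟨_, W, M₁, M₂, i, j, s, e, e'⟩ := two L₁ L₂ x y
    rw [e, e']
    exact s.od _ _ _ _ hx hy

/-- permutations lift along maps -/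
theorem exists_perm_map {α β : Type} {f : α → β} {M : List α} {l : List β} (h : l.Perm (M.map f)) :
    ∃ M' : List α, M'.Perm M ∧ M'.map f = l := by
  obtain ⟨M', a, b⟩ := List.perm_comp_forall₂ (r := fun y x => y = f x) h
    (List.forall₂_map_left_iff.2 (List.forall₂_same.2 fun _ _ => rfl))
  exact ⟨M', b, (List.forall₂_eq_eq_eq ▸ List.forall₂_map_right_iff.2 a :).symm⟩

theorem exists_fun {T : List (ν × μ)} (h : Enum T) : ∃ t : ν → μ, ∀ x ∈ T, t x.1 = x.2 := by
  obtain ⟨φ, e⟩ := h.exists_equiv'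
  refine ⟨fun n => (T.map Prod.snd).get (φ.symm n), fun x hx => ?_⟩
  rw [e] at hx
  obtain ⟨i, rfl⟩ := (List.mem_ofFn' _ _).1 hx
  simp only [Equiv.symm_apply_apply]

end sw

section par

variable {X : Type} [TopologicalSpace X] {a b : H X}

theorem mem_Hev (h : (parH X).σ a = a) : a ∈ Ch.Hev X := by
  have k : ∀ c : H X, c + (parH X).σ c ∈ Ch.Hev X := fun c =>
    H.induction_deg (P := fun c => c + (parH X).σ c ∈ Ch.Hev X) c (by simp)
      (fun a b ha hb => by rw [map_add, add_add_add_comm]; exact add_mem ha hb) fun k => by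
        rw [Tq.parH_deg (H.isDeg_comp k c)]
        rcases Int.even_or_odd k with ⟨l, hl⟩ | hk
        · have : H.comp k c ∈ Ch.Hev X :=
            Ch.mem_Hev (k := l) (by rw [two_mul, ← hl]; exact H.isDeg_comp _ c)
          exact add_mem this (Subalgebra.smul_mem _ this _)
        · rw [hk.neg_one_zpow, neg_one_smul, add_neg_cancel]
          exact zero_mem _
  have := Subalgebra.smul_mem _ (k a) (2 : ℂ)⁻¹
  rwa [h, ← two_smul ℂ, inv_smul_smul₀ two_ne_zero] at this

theorem comm_od (ha : (parH X).σ a = -a) (hb : (parH X).σ b = -b) : a * b = -(b * a) := by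
  have k : ∀ c c' : H X, (c - (parH X).σ c) * (c' - (parH X).σ c') =
      -((c' - (parH X).σ c') * (c - (parH X).σ c)) := fun c c' => by
    refine H.induction_deg (P := fun c => (c - (parH X).σ c) * (c' - (parH X).σ c') =
      -((c' - (parH X).σ c') * (c - (parH X).σ c))) c (by simp)
      (fun a b ha hb => by rw [map_add, add_sub_add_comm, add_mul, mul_add, ha, hb, neg_add])
      fun k => ?_
    refine H.induction_deg (P := fun c' => (H.comp k c - (parH X).σ (H.comp k c)) *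
      (c' - (parH X).σ c') = -((c' - (parH X).σ c') *
        (H.comp k c - (parH X).σ (H.comp k c)))) c' (by simp)
      (fun a b ha hb => by rw [map_add, add_sub_add_comm, add_mul, mul_add, ha, hb, neg_add])
      fun l => ?_
    rw [Tq.parH_deg (H.isDeg_comp k c), Tq.parH_deg (H.isDeg_comp l c')]
    rcases Int.even_or_odd k with hk | hk
    · simp [hk.neg_one_zpow]
    rcases Int.even_or_odd l with hl | hl
    · simp [hl.neg_one_zpow]
    have := (H.isDeg_comp k c).comm (H.isDeg_comp l c')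
    rw [(hk.mul hl).neg_one_zpow, neg_one_smul] at this
    simp only [hk.neg_one_zpow, hl.neg_one_zpow, neg_one_smul, sub_neg_eq_add, add_mul, mul_add,
      this, neg_add]
  have := k a b
  rw [ha, hb, sub_neg_eq_add, sub_neg_eq_add, ← two_smul ℂ, ← two_smul ℂ, smul_mul_smul_comm,
    smul_mul_smul_comm, ← smul_neg] at this
  exact smul_right_injective _ (by norm_num) this

/-- even maps to a cohomology ring give supersymmetric functions -/
theorem sw_of_isEv {V ν : Type} [AddCommGroup V] [Module ℂ V] {p : Par ℂ V}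
    (f : ν → V →ₗ[ℂ] H X) (hf : ∀ n, IsEv p (parH X) (f n)) (I : H X →ₗ[ℂ] ℂ) (u : H X) :
    SW p fun L => I (u * (L.map fun x => f x.1 x.2).prod) :=
  SW.of_sc f (fun _ n _ w h => Ch.Hev.commute (mem_Hev ((hf n w).trans (congrArg _ h))) _)
    (fun n n' v w h h' => comm_od ((hf n v).trans (by rw [h, map_neg]))
      ((hf n' w).trans (by rw [h', map_neg]))) I u

theorem parH_prod {α : Type} {L : List α} {f g : α → H X} (h : ∀ x ∈ L, (parH X).σ (f x) = g x) :
    (parH X).σ (L.map f).prod = (L.map g).prod := by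
  induction L with
  | nil => exact Tq.parH_Hev (one_mem _)
  | cons x L ih =>
    rw [List.forall_mem_cons] at h
    rw [List.map_cons, List.prod_cons, Tq.parH_mul, h.1, ih h.2, List.map_cons, List.prod_cons]

/-- a functional that vanishes in odd degrees is even -/
theorem apply_parH {I : H X →ₗ[ℂ] ℂ} (h : ∀ k c, Odd k → H.IsDeg k c → I c = 0) (c : H X) :
    I ((parH X).σ c) = I c :=
  H.induction_deg (P := fun c => I ((parH X).σ c) = I c) c (by simp)
    (fun _ _ a b => by rw [map_add, map_add, map_add, a, b]) fun k => by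
      rw [Tq.parH_deg (H.isDeg_comp k c)]
      rcases Int.even_or_odd k with hk | hk
      · rw [hk.neg_one_zpow, one_smul]
      · rw [map_smul, h k _ hk (H.isDeg_comp k c), smul_zero]

end par

end Vale.Agent.P269.Num
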