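import Vale.Agent.P269.Bas.RelG
import Vale.Agent.P287Q.G.Map.Psi
import Vale.Agent.P287Q.G.Vir.Cyc
import Vale.Agent.P269.Pt.Glue

set_option linter.unusedSectionVars false
set_option linter.style.haveILetI false

/-!
# Relabelling of the marked points in one chart
-/

namespace Vale.Agent.P269.Ch

open Set Function Topology Filter Module Vale.Agent.P291Z Vale.Agent.P269.Orb Holo

variable {S Λ R J K ι ν κ ν' κ' : Type} [Fintype S] [Fintype Λ] [Fintype R] [Fintype J] [Fintype K]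
  [Fintype ι] [DecidableEq ι] [Fintype ν] [Fintype κ] [Fintype ν'] [Fintype κ'] {ch : Ch ι J}

/-- Relabelling of the marked points. -/
def rlP (e : ν ≃ ν') (x : ch.W ν') : ch.W ν := W.mk' x.Q (fun n => x.p (e n)) x.Ξ x.X

section pt

variable (e : ν ≃ ν') {x : ch.W ν'}

theorem lead_rlP : Lead (rlP e x) = Lead x := by
  classical
  funext γ ρ
  have a : (∃ n, ∃ s : ι → ℂ, γ 0 = s • (rlP e x).p n) ↔ ∃ n, ∃ s : ι → ℂ, γ 0 = s • x.p n :=
    (e.surjective.exists (p := fun n => ∃ s : ι → ℂ, γ 0 = s • x.p n)).symm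
  refine propext (exists_congr fun f => and_congr_right' (and_congr_right' (eventually_congr
    (.of_forall fun t => forall₃_congr fun u _ μ => ?_))))
  rw [if_congr (or_congr Iff.rfl a) rfl rfl]
  rfl

theorem rlP_mem_base : rlP e x ∈ ch.base ν ↔ x ∈ ch.base ν' := by
  simp only [base, mem_ofPred_eq, lead_rlP]
  refine and_congr Iff.rfl (and_congr Iff.rfl (and_congr Iff.rfl (and_congr ?_
    (and_congr ?_ Iff.rfl))))
  · exact (e.surjective.forall (p := fun n => x.p n ∈ crv x ∧ ¬IsNode ch.o (crv x) (x.p n))).symm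
  · exact ⟨fun h => e.surjective.forall₂.2 fun n n' s a => congrArg e (h n n' s a),
      fun h n n' s a => e.injective (h _ _ s a)⟩

end pt

variable (a : ν ≃ ν') (b : κ ≃ κ')

/-- The bijection of the marked points and branches. -/
abbrev mkE : Mk ν κ ≃ Mk ν' κ' := a.sumCongr (b.prodCongr (.refl Bool))

variable (ch Λ) in
/-- Relabelling of the ambient space. -/
noncomputable def rlW : ch.WF ν' κ' Λ ≃L[ℂ] ch.WF ν κ Λ := LinearEquiv.toContinuousLinearEquiv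
  { toFun := fun x => (x.1, rlP (mkE a b) x.2)
    invFun := fun x => (x.1, rlP (mkE a b).symm x.2)
    map_add' := fun _ _ => rfl
    map_smul' := fun _ _ => rfl
    left_inv := fun x => Prod.ext rfl (W.ext (fun _ => rfl)
      (fun n => congrArg x.2.p ((mkE a b).apply_symm_apply n)) rfl fun _ => rfl)
    right_inv := fun x => Prod.ext rfl (W.ext (fun _ => rfl)
      (fun n => congrArg x.2.p ((mkE a b).symm_apply_apply n)) rfl fun _ => rfl) }

variable (ch S) in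
/-- Relabelling of the group. -/
noncomputable def rlA : ch.AF ν' κ' S ≃L[ℂ] ch.AF ν κ S := LinearEquiv.toContinuousLinearEquiv
  { toFun := fun s => (s.1, s.2.1, s.2.2.1, fun n => s.2.2.2 (a.sumCongr b n))
    invFun := fun s => (s.1, s.2.1, s.2.2.1, fun n => s.2.2.2 ((a.sumCongr b).symm n))
    map_add' := fun _ _ => rfl
    map_smul' := fun _ _ => rfl
    left_inv := fun s => Prod.ext rfl (Prod.ext rfl (Prod.ext rfl
      (funext fun n => congrArg s.2.2.2 ((a.sumCongr b).apply_symm_apply n))))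
    right_inv := fun s => Prod.ext rfl (Prod.ext rfl (Prod.ext rfl
      (funext fun n => congrArg s.2.2.2 ((a.sumCongr b).symm_apply_apply n)))) }

variable {x : ch.WF ν' κ' Λ}

theorem rlW_apply (x : ch.WF ν' κ' Λ) : ch.rlW Λ a b x = (x.1, rlP (mkE a b) x.2) := rfl

theorem rlW_symm : (ch.rlW Λ a b).symm = ch.rlW Λ a.symm b.symm := rfl

theorem dup_rlA (s : ch.AF ν' κ' S) (n : Mk ν κ) :
    (dup (ch.rlA S a b s).2).2.2 n = (dup s.2).2.2 (mkE a b n) := by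
  cases n <;> rfl

theorem linI (W : Wt S Λ R J) : LinI (actF W) (actF W) (ch.rlA S a b) (ch.rlW Λ a b) :=
  ⟨rfl, fun _ _ => rfl, fun s x => Prod.ext rfl (Ch.W.ext (fun _ => rfl)
    (fun n => by cases n <;> rfl) rfl fun _ => rfl)⟩

theorem vl_rlW (n : Mk ν κ) : vl (ch.rlW Λ a b x) n = vl x (mkE a b n) := rfl

theorem vl2_rlW (n n' : Mk ν κ) :
    vl2 (ch.rlW Λ a b x) n n' = vl2 x (mkE a b n) (mkE a b n') := rfl

theorem rlW_mem_baseF {B : Set (Λ → ℂ)} :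
    ch.rlW Λ a b x ∈ ch.baseF ν κ B ↔ x ∈ ch.baseF ν' κ' B := by
  simp only [baseF, mem_ofPred_eq, rlW_apply, lead_rlP, rlP_mem_base]
  exact and_congr Iff.rfl (and_congr Iff.rfl ⟨fun h => b.surjective.forall.2 h, fun h q => h (b q)⟩)

variable {F : Fam S Λ R J K} {e : K → ι → ℕ}

theorem rlW_mem_adm : ch.rlW Λ a b x ∈ ch.adm ν κ F ↔ x ∈ ch.adm ν' κ' F :=
  and_congr (rlW_mem_baseF a b) (and_congr Iff.rfl (and_congr Iff.rfl (and_congr Iff.rfl
    (forall₂_congr fun j _ => (b.surjective.forall (p := fun q =>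
      fld x.2 (x.2.p (.inr (q, false))) j = fld x.2 (x.2.p (.inr (q, true))) j)).symm))))

theorem rlW_mem_main {u : ν' → J → ℕ} :
    ch.rlW Λ a b x ∈ ch.main κ F (fun n => u (a n)) ↔ x ∈ ch.main κ' F u := by
  classical
  refine and_congr (rlW_mem_adm a b) (forall₃_congr fun j _ _ => forall₂_congr fun γ _ => ?_)
  rw [← a.sum_comp fun n => if ∃ s : ι → ℂ, γ 0 = s • x.2.p (.inl n) then u n j else 0]
  rfl

theorem rlW_mem_cyc {u : ν' → J → ℕ} :
    ch.rlW Λ a b x ∈ ch.cyc κ F (fun n => u (a n)) ↔ x ∈ ch.cyc κ' F u := by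
  refine and_congr ?_ (rlW_mem_baseF a b)
  rw [← show ch.rlW Λ a b ⁻¹' ch.main κ F (fun n => u (a n)) = ch.main κ' F u from
    Set.ext fun _ => rlW_mem_main a b]
  exact Set.ext_iff.1 ((ch.rlW Λ a b).toHomeomorph.preimage_closure _) x

theorem rlW_mem_solF : ch.rlW Λ a b x ∈ ch.solF ν κ F ↔ x ∈ ch.solF ν' κ' F :=
  and_congr (rlW_mem_baseF a b) (and_congr (rlP_mem_base _) Iff.rfl)

theorem rlW_mem_dom : ch.rlW Λ a b x ∈ ch.dom ν κ F e ↔ x ∈ ch.dom ν' κ' F e :=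
  and_congr (rlW_mem_adm a b) (imp_congr Iff.rfl (rlW_mem_solF a b))

theorem kd_rl : (ch.kd ν κ F e).pb (ch.rlA S a b) (ch.rlW Λ a b) = ch.kd ν' κ' F e := rfl

theorem rep_rlW {ℓ : R → ι → ℤ} {A : Set J} {m : AM Λ R J ν' κ'} :
    Rep ℓ A (ch.rlW Λ a b x) (m.re (mkE a b).toEmbedding) ↔ Rep ℓ A x m := by
  refine and_congr Iff.rfl (exists₂_congr fun B π => and_congr ?_ Iff.rfl)
  refine ⟨fun h => ⟨h.par, ?_, ?_, ?_⟩, fun h => ⟨h.par, ?_, ?_, ?_⟩⟩
  · obtain ⟨s, h1, h2⟩ := h.mark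
    refine ⟨fun n => s ((a.sumCongr b).symm n), fun n => h1 _, (mkE a b).surjective.forall.2
      fun n => (h2 n).trans (congrArg (fun t => s t • _) ?_)⟩
    cases n <;> simp
  · simpa only [AC.re_ω_eq] using h.triv
  · have := h.xi
    simp only [AC.re_sg, AC.re_P] at this
    exact this
  · obtain ⟨s, h1, h2⟩ := h.mark
    exact ⟨fun n => s (a.sumCongr b n), fun n => h1 _, fun n => (h2 _).trans (by cases n <;> rfl)⟩
  · simpa only [AC.re_ω_eq] using h.triv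
  · simp only [AC.re_sg, AC.re_P]
    exact h.xi

variable {S₀ O M Z : Set (ch.WF ν κ Λ)} {S₀' Z' : Set (ch.WF ν' κ' Λ)} {d : ℕ}

theorem rl_sol (h : ∀ x, x ∈ S₀' ↔ ch.rlW Λ a b x ∈ S₀) (x : ch.WF ν' κ' Λ) :
    x ∈ ch.solF ν' κ' F ∩ S₀' ↔ ch.rlW Λ a b x ∈ ch.solF ν κ F ∩ S₀ :=
  and_congr (rlW_mem_solF a b).symm (h x)

variable (F) in
/-- The homeomorphism of the moduli spaces. -/
noncomputable def rlH (h : ∀ x, x ∈ S₀' ↔ ch.rlW Λ a b x ∈ S₀) : ModS F S₀' ≃ₜ ModS F S₀ :=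
  (linI a b F.toWt).homeo (rl_sol a b h)

theorem rlH_mk (h : ∀ x, x ∈ S₀' ↔ ch.rlW Λ a b x ∈ S₀) (x) :
    rlH a b F h (Quo.mk _ x) = Quo.mk _ ⟨ch.rlW Λ a b x.1, (rl_sol a b h _).1 x.2⟩ := rfl

theorem Vd.rl (v : Vd F e S₀ O M d) (h : ∀ x, x ∈ S₀' ↔ ch.rlW Λ a b x ∈ S₀) :
    Vd F e S₀' (ch.rlW Λ a b ⁻¹' O) (ch.rlW Λ a b ⁻¹' M) d := by
  have l := linI (ch := ch) a b F.toWt
  have c := l.dom v.dom (rl_sol a b h) h
  rw [kd_rl] at c
  exact ⟨fun x hx => (rlW_mem_adm a b).1 (v.adm ((h x).1 hx)),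
    fun s hs x hx => (h _).2 (l.ivt v.inv s hs x ((h x).1 hx)), c, l.cyc v.cyc⟩

/-- **the virtual class** -/
theorem Vd.push_rl {K₀ : RD R} {ℓ : R → ι → ℤ} (v : Vd F e S₀ O M d) (hs : ch.Std F e K₀ ℓ)
    (h : ∀ x, x ∈ S₀' ↔ ch.rlW Λ a b x ∈ S₀) :
    push (rlH a b F h) (virF F e S₀') = virF F e S₀ := by
  obtain ⟨n, o⟩ := hs.ok (ν := ν) (κ := κ)
  obtain ⟨k, i, c, -⟩ := v.exists_isKP hs
  obtain ⟨k', i', c', -⟩ := (v.rl a b h).exists_isKP hs
  rw [v.virF_eq c, (v.rl a b h).virF_eq c', ← v.dom.vr_eq c, ← (v.rl a b h).dom.vr_eq c']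
  exact (linI a b F.toWt).push_vr ⟨v.dom.self, o.mono (v.dom.subset_dom v.adm)⟩ (rl_sol a b h) v.cyc

/-- **the cotangent lines** -/
theorem psiF_rl {W : Wt S Λ R J} [IsAct (actF W) Z] (ho : Orb (ch.AF ν κ S)ˣ (Holo.Sp (actF W) Z))
    (hc : ch.Cuts) (hZ : ∀ x ∈ Z, x.2 ∈ ch.base _) (h : ∀ x, x ∈ Z' ↔ ch.rlW Λ a b x ∈ Z)
    (n : Mk ν κ) :
    H.map ((linI a b W).homeo h : C(Quo (actF W) Z', Quo (actF W) Z)) (hcls (psiF n)) =
      hcls (psiF (mkE a b n)) := by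
  obtain rfl : Z' = ch.rlW Λ a b ⁻¹' Z := Set.ext h
  have l := linI (ch := ch) (Λ := Λ) a b W
  haveI := l.isAct (S := Z)
  have o := hc.okψ (S := S) (F := W) hZ n
  have o' := hc.okψ (S := S) (F := W) (Z := ch.rlW Λ a b ⁻¹' Z)
    (fun x hx => (rlP_mem_base _).1 (hZ _ hx)) (mkE a b n)
  rw [H.map_hcls _ (psiF_cocycle ho hc hZ n), psiF_eq, psiF_eq, map_neg,
    hcls_neg (o'.cocycle (l.orb ho)), hcls_neg (cocycle_pull (map_continuous _) (o.cocycle ho))]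
  exact congrArg Neg.neg (o'.pull (l.orb ho) ho o (l.eqM fun _ => id) (L := fun _ => .id)
    ⟨fun _ _ => continuousOn_const, fun _ _ _ h => h, fun _ _ _ h => h,
      fun x hx s hs w hw => (Submodule.Quotient.eq _).1 (by cases n <;> rfl)⟩ (fun _ _ _ _ h => h)
    fun x hx w hw => ⟨w, hw, (sub_self w).symm ▸ zero_mem _⟩).1.symm

end Vale.Agent.P269.Ch
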